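import Vale.Agent.P216.H347C.Core2
import Vale.Agent.P216.H133C.ThomOut

/-!
# P216-C, [RING]: change of the metric
-/

open Finsupp Set

namespace Vale.Agent.P216.H347C

open Vale.Agent.P216.PS Vale.Agent.P216.Sl Vale.Agent.P216.H133C

theorem pw_map {k : Type} [Field k] {α β : Type} (ξ : List β → k) (u : α → β) (d : ℕ) :
    ∀ (j : ℕ) (l : List α), pw ξ d j (l.map u) = pw (fun l => ξ (l.map u)) d j l
  | 0, l => by
    change (if (l.map u).length = 1 then (1 : k) else 0) = if l.length = 1 then 1 else 0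
    rw [List.length_map]
  | j + 1, l => by
    change ξ ((l.map u).take (d + 1)) * pw ξ d j ((l.map u).drop d) =
      ξ ((l.take (d + 1)).map u) * pw (fun l => ξ (l.map u)) d j (l.drop d)
    rw [← List.map_take, ← List.map_drop, pw_map ξ u d j]

/-- **[RING] does not depend on the metric.** -/
theorem ringOut_trans {M N : Type} [MetricSpace M] [CompactSpace M] [MetricSpace N]
    [CompactSpace N] {d h : ℕ} (C : CellDec M d h) (e : N ≃ₜ M) (hR : RingOut M C) :
    RingOut N (C.trans e) := by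
  intro k _ h2
  obtain ⟨ξ, hN, ⟨ε, hε, hc⟩, hne⟩ := hR k h2
  obtain ⟨δ, hδ, hu⟩ := Metric.uniformContinuous_iff.1
    (CompactSpace.uniformContinuous_of_continuous e.continuous) ε hε
  refine ⟨fun l => ξ (l.map e), hN.map e, ⟨δ, hδ, fun l hl hs => ?_⟩, fun j hj hex => ?_⟩
  · rw [Sl.dl_map ξ e]
    refine hc _ (by rw [List.length_map]; exact hl) ⟨fun _ _ => mem_univ _, fun a ha b hb => ?_⟩
    obtain ⟨x, hx, rfl⟩ := List.mem_map.1 ha
    obtain ⟨y, hy, rfl⟩ := List.mem_map.1 hb
    exact hu (hs.2 x hx y hy)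
  · obtain ⟨g, hg, ε', hε', h⟩ := hex
    obtain ⟨δ', hδ', hu'⟩ := Metric.uniformContinuous_iff.1
      (CompactSpace.uniformContinuous_of_continuous e.symm.continuous) ε' hε'
    refine hne j hj ⟨fun l => g (l.map e.symm), fun h0 l => hg h0 _, δ', hδ', fun l hl hs => ?_⟩
    rw [Sl.dl_map g e.symm, ← h _ (by rw [List.length_map]; exact hl) ⟨fun a ha => ?_,
      fun a ha b hb => ?_⟩, ← pw_map ξ e d j, List.map_map]
    · congr 1
      conv_lhs => rw [← List.map_id l]
      exact List.map_congr_left fun x _ => (e.apply_symm_apply x).symm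
    · obtain ⟨x, hx, rfl⟩ := List.mem_map.1 ha
      obtain ⟨i, hi, hxi⟩ := hs.1 x hx
      refine ⟨i, hi, ?_⟩
      change e (e.symm x) ∈ C.D i
      rw [e.apply_symm_apply]
      exact hxi
    · obtain ⟨x, hx, rfl⟩ := List.mem_map.1 ha
      obtain ⟨y, hy, rfl⟩ := List.mem_map.1 hb
      exact hu' (hs.2 x hx y hy)

end Vale.Agent.P216.H347C
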