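import Vale.Agent.P216.H347C.Ring
import Vale.Agent.P216.H347C.Trans

/-!
# P216-C, [RING]: quaternionic projective spaces
-/

open Finsupp Set Quaternion

namespace Vale.Agent.P216.H347C

open Vale.Agent.P216.H133C

variable {m : ℕ}

theorem isCompact_qball (c : ℝ) : IsCompact {v : Quaternion ℝ | ‖v‖ ^ 2 ≤ c} := by
  have : ProperSpace (Quaternion ℝ) := FiniteDimensional.proper ℝ (Quaternion ℝ)
  refine (isCompact_closedBall (0 : Quaternion ℝ) (√c)).of_isClosed_subset
    (isClosed_le (continuous_norm.pow 2) continuous_const) fun v hv => ?_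
  rw [mem_closedBall_zero_iff]
  exact Real.le_sqrt_of_sq_le hv

theorem ns_one_pos : 0 < ns (fun _ : Fin (m + 1) => (1 : Quaternion ℝ)) :=
  ns_pos_of (j := 0) one_ne_zero

open Classical in
/-- The point of homogeneous coordinates `w`. -/
noncomputable def ptHP (w : Fin (m + 1) → Quaternion ℝ) : HP (m + 1) :=
  if h : 0 < ns w then ⟨npr w, npr_mem h⟩ else ⟨npr fun _ => 1, npr_mem ns_one_pos⟩

theorem ptHP_val {w : Fin (m + 1) → Quaternion ℝ} (h : 0 < ns w) : (ptHP w).1 = npr w := by
  rw [ptHP, dif_pos h]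

/-- The permutation of the coordinates. -/
noncomputable def permHP (σ : Equiv.Perm (Fin (m + 1))) : HP (m + 1) ≃ₜ HP (m + 1) where
  toFun P := ⟨fun i l => P.1 (σ i) (σ l), by
    obtain ⟨v, hv, hP⟩ := P.2
    refine ⟨fun i => v (σ i), ?_, ?_⟩
    · rw [← hv]
      exact Equiv.sum_comp σ fun i => ‖v i‖ ^ 2
    · rw [hP]
      rfl⟩
  invFun P := ⟨fun i l => P.1 (σ.symm i) (σ.symm l), by
    obtain ⟨v, hv, hP⟩ := P.2
    refine ⟨fun i => v (σ.symm i), ?_, ?_⟩
    · rw [← hv]
      exact Equiv.sum_comp σ.symm fun i => ‖v i‖ ^ 2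
    · rw [hP]
      rfl⟩
  left_inv P := by
    refine Subtype.ext ?_
    funext i l
    simp only [Equiv.apply_symm_apply]
  right_inv P := by
    refine Subtype.ext ?_
    funext i l
    simp only [Equiv.symm_apply_apply]
  continuous_toFun := by
    refine Continuous.subtype_mk ?_ _
    exact continuous_pi fun i => continuous_pi fun l =>
      (continuous_apply (σ l)).comp ((continuous_apply (σ i)).comp continuous_subtype_val)
  continuous_invFun := by
    refine Continuous.subtype_mk ?_ _
    exact continuous_pi fun i => continuous_pi fun l =>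
      (continuous_apply (σ.symm l)).comp
        ((continuous_apply (σ.symm i)).comp continuous_subtype_val)

variable (m) in
/-- Quaternionic projective space. -/
noncomputable def prHP : PrSp (HP (m + 1)) (Quaternion ℝ) m where
  one := 1
  q v := ‖v‖ ^ 2
  q_cont := continuous_norm.pow 2
  q_zero := by rw [norm_zero]; norm_num
  q_one := by rw [norm_one, one_pow]
  q_nonneg v := by positivity
  q_eq_zero v h := norm_eq_zero.1 (pow_eq_zero_iff two_ne_zero |>.1 h)
  q_smul s v := by rw [norm_smul, mul_pow, Real.norm_eq_abs, sq_abs]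
  q_cpt := isCompact_qball
  dg i P := H133C.dg P.1 i
  dg_cont i := (continuous_dg i).comp continuous_subtype_val
  dg_nonneg i P := H133C.dg_nonneg P.2 i
  dg_sum P := sum_dg P.2
  pt := ptHP
  pt_cont j := by
    rw [Topology.IsInducing.subtypeVal.continuousOn_iff]
    refine (continuousOn_npr.mono fun w hw => ?_).congr fun w hw => ?_
    · exact ns_pos_of (j := j) (by rw [show w j = 1 from hw]; exact one_ne_zero)
    · exact ptHP_val (ns_pos_of (j := j) (by rw [show w j = 1 from hw]; exact one_ne_zero))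
  dg_pt j w hw i := by
    rw [ptHP_val (ns_pos_of (j := j) (by rw [hw]; exact one_ne_zero)), dg_npr]
    rfl
  ch j P := H133C.ch j P.1
  ch_cont j := (continuousOn_ch j).comp continuous_subtype_val.continuousOn fun _ h => h
  ch_self j P h := H133C.ch_self P.2 h
  q_ch j P h i := norm_ch P.2 h i
  pt_ch j P h := by
    refine Subtype.ext ?_
    rw [ptHP_val (ns_pos_of (j := j) (by rw [H133C.ch_self P.2 h]; exact one_ne_zero)),
      npr_ch P.2 h]
  perm σ := ⟨permHP σ, fun _ _ => rfl⟩

theorem Dj_eq {j : ℕ} (hj : j ≤ m) : (cellDecHP m).D j = (prHP m).Dd (PrSp.jj hj) := by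
  ext P
  constructor
  · intro h i
    have := h i.1 (Nat.lt_succ_iff.1 i.2)
    rw [dgN_of_lt i.2, dgN_of_lt (Nat.lt_succ_of_le hj)] at this
    exact this
  · intro h i hi
    rw [dgN_of_lt (Nat.lt_succ_of_le hi), dgN_of_lt (Nat.lt_succ_of_le hj)]
    exact h ⟨i, Nat.lt_succ_of_le hi⟩

/-- **[RING] for quaternionic projective spaces.** -/
theorem ringHP : RingHP := by
  intro m M _ _ e
  exact ringOut_trans _ e ((prHP m).ringOut (cellDecHP m) (fun _ hj => Dj_eq hj) (by norm_num))

end Vale.Agent.P216.H347C
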