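import Vale.Agent.P216.H347C.PrSp
import Vale.Agent.P216.H892.CellCoh
import Vale.Agent.P216.H140.RCls

/-!
# P216-C, [RING]: the ring structure of abstract projective spaces
-/

open Finsupp Set

namespace Vale.Agent.P216.H347C

open Vale.Agent.P216.AS Vale.Agent.P216.PS Vale.Agent.P216.Sl Vale.Agent.P216.H901
open Vale.Agent.P216.H83 Vale.Agent.P216.H140 Vale.Agent.P216.H133C

variable {k : Type} [Field k] {M : Type} [MetricSpace M]

theorem exR_of_exL {X : Set M} {n : ℕ} {f : List M → k} (hn : 1 ≤ n) (h : ExL X n f) :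
    ExR X ∅ n f := by
  obtain ⟨g, hg, h⟩ := h
  obtain ⟨n, rfl⟩ : ∃ p, n = p + 1 := ⟨n - 1, by omega⟩
  exact ⟨g, hg, vanL_empty, h⟩

/-- A representative vanishing on `K`. -/
theorem exists_rep {d : ℕ} {ξ : List M → k} (hξ : CocL (univ : Set M) d ξ) {K : Set M}
    (hK : resR (subset_univ K) subset_rfl d (clsR (tr M) (on k) ξ hξ.toR) = 0) :
    ∃ x b : List M → k, Nrm x ∧ ∃ ε > 0,
      (∀ l, l.length = d + 2 → SmL (univ : Set M) ε l → dl x l = 0) ∧
      (∀ l, l.length = d + 1 → SmL (univ : Set M) ε l → ξ l - x l = dl b l) ∧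
      (∀ l, l.length = d + 1 → SmL K ε l → x l = 0) := by
  have h1 : lesB k (subset_univ K) d (clsR (tr M) (on k) ξ hξ.toR) = 0 := hK
  obtain ⟨y, hy⟩ := (les_ex1 k (subset_univ K) d _).1 h1
  obtain ⟨x, hx, hN, rfl⟩ := exists_clsR y
  rw [lesA_clsR] at hy
  obtain ⟨b, -, -, ε₁, hε₁, hb⟩ := clsR_eq_clsR.1 hy.symm
  obtain ⟨⟨ε₂, hε₂, h2⟩, ε₃, hε₃, h3⟩ := hx
  refine ⟨x, b, hN, min ε₁ (min ε₂ ε₃), lt_min hε₁ (lt_min hε₂ hε₃), fun l hl hs => ?_,
    fun l hl hs => ?_, fun l hl hs => ?_⟩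
  · exact h2 l hl (hs.mono subset_rfl ((min_le_right _ _).trans (min_le_left _ _)))
  · exact hb l hl (hs.mono subset_rfl (min_le_left _ _))
  · exact h3 l hl (hs.mono subset_rfl ((min_le_right _ _).trans (min_le_right _ _)))

/-- Classes of positive degree restrict to zero on the sets contractible in `M`. -/
theorem null_res [CompactSpace M] {K : Set M} (hK : IsClosed K) {D : M × ℝ → M}
    (hD : ContinuousOn D (K ×ˢ Icc (0 : ℝ) 1)) (h1 : ∀ x ∈ K, D (x, 1) = x) {p : M}
    (h0 : ∀ x ∈ K, D (x, 0) = p) {q : ℕ} (hq : 1 ≤ q)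
    (x : Hr (tr M) (on k) (univ : Set M) ∅ q) : resR (subset_univ K) subset_rfl q x = 0 := by
  have hH : IsHtpy (tr M) (tr M) K univ (fun s x => D (x, s)) := by
    refine IsHtpy.of_continuousOn hK.isCompact ?_ (fun _ _ _ _ => mem_univ _)
      fun _ _ i => i.elim
    exact hD.comp (continuous_snd.prodMk continuous_fst).continuousOn fun p hp => ⟨hp.2, hp.1⟩
  have e1 := pullR_homotopy (χ := on k) hH (empty_subset K) (A' := ∅)
    (fun _ _ => mapsTo_empty _ _) q
  have e2 : pullR (on k) hH.one (empty_subset K) (mapsTo_empty _ _) q =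
      resR (subset_univ K) subset_rfl q :=
    pullR_eq_resR (subset_univ K) subset_rfl (empty_subset K) hH.one (mapsTo_empty _ _) h1
  rw [← e2, e1]
  obtain ⟨f, hf, hN, rfl⟩ := exists_clsR x
  rw [pullR_clsR, clsR_eq_zero]
  refine ⟨fun _ => 0, fun _ _ => rfl, ⟨1, one_pos, fun _ _ _ => rfl⟩, 1, one_pos,
    fun l hl hs => ?_⟩
  rw [PS.dl_zero_fun]
  obtain ⟨a, b, l', rfl⟩ : ∃ a b l', l = a :: b :: l' := by
    rcases l with _ | ⟨a, _ | ⟨b, l'⟩⟩
    · simp at hl
    · simp only [List.length_cons, List.length_nil] at hl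
      omega
    · exact ⟨a, b, l', rfl⟩
  have ea : D (a, 0) = p := h0 a (hs.1 a List.mem_cons_self)
  have eb : D (b, 0) = p := h0 b (hs.1 b (List.mem_cons_of_mem _ List.mem_cons_self))
  beta_reduce
  rw [List.map_cons, List.map_cons, ea, eb]
  exact hN.dup p _

theorem pw_eq {α : Type} (ξ : List α → k) (d : ℕ) : ∀ j, pw ξ d j = cupF d j fun _ => ξ
  | 0 => rfl
  | j + 1 => by
    rw [cupF_succ, ← pw_eq ξ d j]
    rfl

theorem exists_min {j : ℕ} (hj : 1 ≤ j) (ε : Fin j → ℝ) (hε : ∀ i, 0 < ε i) :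
    ∃ ε₀ > 0, ∀ i, ε₀ ≤ ε i := by
  have : Nonempty (Fin j) := ⟨⟨0, hj⟩⟩
  refine ⟨Finset.univ.inf' Finset.univ_nonempty ε, ?_, fun i =>
    Finset.inf'_le _ (Finset.mem_univ i)⟩
  exact (Finset.lt_inf'_iff _).2 fun i _ => hε i

theorem exists_perm {n : ℕ} {z o a b : Fin n} (hzo : z ≠ o) (hab : a ≠ b) :
    ∃ σ : Equiv.Perm (Fin n), σ z = a ∧ σ o = b := by
  have h1 : Equiv.swap z a z = a := Equiv.swap_apply_left z a
  have h2 : Equiv.swap z a o ≠ a := fun h => hzo ((Equiv.swap z a).injective (h1.trans h.symm))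
  refine ⟨Equiv.swap (Equiv.swap z a o) b * Equiv.swap z a, ?_, ?_⟩
  · rw [Equiv.Perm.mul_apply, h1, Equiv.swap_apply_of_ne_of_ne h2.symm hab]
  · rw [Equiv.Perm.mul_apply, Equiv.swap_apply_left]

namespace PrSp

variable {V : Type} [NormedAddCommGroup V] [NormedSpace ℝ V] {m : ℕ} (P : PrSp M V m)
  [CompactSpace M] {d : ℕ}

/-- The fat handles are contractible in `M`. -/
theorem res_Kf (j : Fin (m + 1)) {q : ℕ} (hq : 1 ≤ q)
    (x : Hr (tr M) (on k) (univ : Set M) ∅ q) :
    resR (subset_univ (P.Kf j)) subset_rfl q x = 0 := by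
  set u : M × ℝ → Fin (m + 1) → V := fun p l =>
    if l = j then P.one else p.2 • P.ch j p.1 l with hu
  have huc : ContinuousOn u ({x | 0 < P.dg j x} ×ˢ (univ : Set ℝ)) := by
    refine continuousOn_pi.2 fun l => ?_
    have h1 : ContinuousOn (fun p : M × ℝ => P.ch j p.1 l)
        ({x | 0 < P.dg j x} ×ˢ (univ : Set ℝ)) :=
      (continuous_apply l).comp_continuousOn
        ((P.ch_cont j).comp continuousOn_fst fun p hp => hp.1)
    simp only [hu]
    by_cases h : l = j
    · simp only [if_pos h]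
      exact continuousOn_const
    · simp only [if_neg h]
      exact continuousOn_snd.smul h1
  have hDc : ContinuousOn (fun p => P.pt (u p)) ({x | 0 < P.dg j x} ×ˢ (univ : Set ℝ)) :=
    (P.pt_cont j).comp huc fun p _ => if_pos rfl
  refine null_res (P.isClosed_Kf j) (D := fun p => P.pt (u p))
    (hDc.mono fun p hp => ⟨P.Kf_pos hp.1, mem_univ _⟩) (fun x hx => ?_)
    (p := P.pt fun l => if l = j then P.one else 0) (fun x hx => ?_) hq x
  · have : u (x, 1) = P.ch j x := by
      funext l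
      simp only [hu]
      split_ifs with h
      · rw [h, P.ch_self _ _ (P.Kf_pos hx)]
      · exact one_smul ℝ _
    change P.pt (u (x, 1)) = x
    rw [this, P.pt_ch _ _ (P.Kf_pos hx)]
  · have : u (x, 0) = fun l => if l = j then P.one else 0 := by
      funext l
      simp only [hu, zero_smul]
    change P.pt (u (x, 0)) = _
    rw [this]

variable (C : CellDec M d m) (hC : ∀ (j : ℕ) (hj : j ≤ m), C.D j = P.Dd (jj hj))

omit [CompactSpace M] in
include hC in
theorem L_eq {j : ℕ} (hj : j ≤ m + 1) : C.L j = P.LL j := by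
  ext x
  constructor
  · rintro ⟨i, hi, hx⟩
    have him : i ≤ m := by omega
    rw [hC i him] at hx
    exact ⟨jj him, hi, hx⟩
  · rintro ⟨i, hi, hx⟩
    refine ⟨i.1, hi, ?_⟩
    rw [hC i.1 (by omega)]
    exact hx

include hC in
/-- A non-zero class of degree `d` is not zero on the union of two handles. -/
theorem res_two (h2 : (2 : k) ≠ 0) (hd : 2 ≤ d) (hm : 1 ≤ m) {a b : Fin (m + 1)} (hab : a ≠ b)
    {x : Hr (tr M) (on k) (univ : Set M) ∅ d} (hx : x ≠ 0) :
    resR (subset_univ (P.Dd a ∪ P.Dd b)) subset_rfl d x ≠ 0 := by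
  have hzo : (jj (Nat.zero_le m) : Fin (m + 1)) ≠ jj hm := fun h => by
    have := congrArg Fin.val h
    simp [jj] at this
  obtain ⟨σ, hσ0, hσ1⟩ := exists_perm hzo hab
  obtain ⟨e, he⟩ := P.perm σ
  obtain ⟨x', hx'⟩ := H892.resL2 (k := k) (C.trans e) h2 hd hm
  have hpre : ∀ c, e ⁻¹' P.Dd c = P.Dd (σ c) := by
    intro c
    ext y
    constructor
    · intro h i
      have := h (σ.symm i)
      rw [he, he, Equiv.apply_symm_apply] at this
      exact this
    · intro h i
      have := h (σ i)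
      rw [he, he]
      exact this
  have hL : (C.trans e).L 2 = P.Dd a ∪ P.Dd b := by
    rw [← hσ0, ← hσ1, ← hpre, ← hpre, ← hC 0 (Nat.zero_le m), ← hC 1 hm]
    ext y
    constructor
    · rintro ⟨i, hi, hy⟩
      have h01 : i = 0 ∨ i = 1 := by omega
      rcases h01 with rfl | rfl
      · exact Or.inl hy
      · exact Or.inr hy
    · rintro (hy | hy)
      · exact ⟨0, by omega, hy⟩
      · exact ⟨1, by omega, hy⟩
  have h1 := H892.finrank_M (k := k) C h2 hd hm
  rw [Nat.mul_one] at h1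
  obtain ⟨c, hc⟩ := (finrank_eq_one_iff_of_nonzero' x hx).1 h1 x'
  intro h0
  apply hx'
  have key : ∀ L : Set M, L = P.Dd a ∪ P.Dd b →
      resR (subset_univ L) subset_rfl d x' = 0 := by
    rintro _ rfl
    rw [← hc, map_smul, h0, smul_zero]
  exact key _ hL

include hC in
/-- **[RING] for abstract projective spaces.** -/
theorem ringOut (hd : 2 ≤ d) : RingOut M C := by
  intro k _ h2
  have hj0 : ∀ ξ : List M → k, ¬ ExL (C.L (0 + 1)) (d * 0) (pw ξ d 0) := by
    rintro ξ ⟨g, hg, ε, hε, h⟩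
    have hg' : g = fun _ => 0 := funext (hg rfl)
    have hp := P.Ph_mem (Nat.zero_le m) (fun i => i.elim0)
    rw [← P.L_eq C hC (by omega)] at hp
    have := h [P.Ph fun i => i.elim0] (by simp) ⟨fun x hx => by
      rw [List.mem_singleton.1 hx]; exact hp, fun x hx y hy => by
      rw [List.mem_singleton.1 hx, List.mem_singleton.1 hy, dist_self]; exact hε⟩
    rw [hg', PS.dl_zero_fun] at this
    simp [pw] at this
  rcases Nat.eq_zero_or_pos m with rfl | hm
  · refine ⟨fun _ => 0, fun _ _ => rfl, ⟨1, one_pos, fun l _ _ => PS.dl_zero_fun l⟩,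
      fun j hj => ?_⟩
    obtain rfl : j = 0 := by omega
    exact hj0 _
  -- the class
  obtain ⟨x, hx⟩ : ∃ x : Hr (tr M) (on k) (univ : Set M) ∅ d, x ≠ 0 := by
    have := H892.c2 (k := k) C h2 hd (i := 1) hm
    rwa [Nat.mul_one] at this
  obtain ⟨ξ, hξR, hN, rfl⟩ := exists_clsR x
  have hξ : CocL (univ : Set M) d ξ := hξR.coc
  refine ⟨ξ, hN, hξ, fun j hj => ?_⟩
  rcases Nat.eq_zero_or_pos j with rfl | hj1
  · exact hj0 ξ
  -- representatives
  have hrep := fun i : Fin j => exists_rep hξ (K := P.Kf (iy hj i)) (P.res_Kf _ (by omega) _)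
  choose x' b hxN ε hε hx1 hx2 hx3 using hrep
  obtain ⟨ε₁, hε₁, hcoc⟩ := hξ
  obtain ⟨ε₂, hε₂, hmin⟩ := exists_min hj1 ε hε
  rw [pw_eq, P.L_eq C hC (by omega)]
  refine (P.crd hj).core (by omega) hj1 (lt_min hε₁ hε₂) (ξ := ξ)
    (fun l hl hs => hcoc l hl (hs.mono subset_rfl (min_le_left _ _))) x' b hxN
    (fun i l hl hs => hx1 i l hl (hs.mono subset_rfl ((min_le_right _ _).trans (hmin i))))
    (fun i l hl hs => hx2 i l hl (hs.mono subset_rfl ((min_le_right _ _).trans (hmin i))))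
    (fun i l hl hs => hx3 i l hl (hs.mono subset_rfl ((min_le_right _ _).trans (hmin i))))
    (fun i => N929.not_ex_iff.1 fun hex => ?_) (fun g hg => ?_)
  · have h3 := P.res_two C hC h2 hd hm (iy_ne hj i) hx
    apply h3
    rw [resR_clsR, clsR_eq_zero]
    exact exR_of_exL (by omega) hex
  · rw [← P.L_eq C hC (by omega)] at hg ⊢
    have hdj : d * j - 1 + 1 = d * j := by
      have : 0 < d * j := Nat.mul_pos (by omega) hj1
      omega
    have h3 := H892.LVan (k := k) C h2 (j := j) (by omega) (q := d * j - 1) (fun h4 => by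
      have h5 : d ∣ 1 := by
        have h6 : d ∣ d * j - 1 + 1 := by
          rw [hdj]
          exact Nat.dvd_mul_right d j
        exact (Nat.dvd_add_right h4).1 h6
      have := Nat.le_of_dvd one_pos h5
      omega) (clsR (tr M) (on k) g hg.toR)
    exact (clsR_eq_zero.1 h3).exL

end PrSp

end Vale.Agent.P216.H347C
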