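import Vale.Agent.P216.H347C.Prc
import Vale.Agent.P216.H347.Tau2
import Vale.Agent.P216.H133C.ThomOut

/-!
# P216-C, [RING]: the core theorem

`Crd X S j V`: coordinates on a top cell of `X`, the rest of `X` being `S`.
-/

open Finsupp Set

namespace Vale.Agent.P216.H347C

open Vale.Agent.P216.Sl Vale.Agent.P216.PS

variable {k : Type} [Field k]

/-- Coordinates `Φ : V^j → M` on a cell of `X`; `S` is the rest of `X`; `K l` are neighbourhoods in
`X` of the pieces of `S`; `Li l` are the unions of two pieces, `T l` is the part of `Li l` near the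
second piece, where the homotopy `Ψ l` moves it to the line of index `l`. -/
structure Crd {M : Type} [MetricSpace M] (X S : Set M) (j : ℕ) (V : Type) [MetricSpace V] where
  S_X : S ⊆ X
  r : V → ℝ
  ρ : ℝ
  hρ : 1 < ρ
  cpt : IsCompact {v : V | r v ≤ ρ}
  v0 : V
  sc : ℝ → V → V
  sc_cont : Continuous fun p : ℝ × V => sc p.1 p.2
  sc_one : ∀ v, sc 1 v = v
  sc_zero : ∀ v, sc 0 v = v0
  sc_r : ∀ s ∈ Icc (0 : ℝ) 1, ∀ v, r (sc s v) ≤ r v
  r0 : r v0 ≤ ρ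
  Φ : (Fin j → V) → M
  Φ_cont : ContinuousOn Φ {w | ∀ i, r (w i) ≤ ρ}
  Φ_X : ∀ w, (∀ i, r (w i) ≤ ρ) → Φ w ∈ X
  Φ_S : ∀ w, (∀ i, r (w i) ≤ ρ) → (∃ i, 1 ≤ r (w i)) → Φ w ∈ S
  K : Fin j → Set M
  Φ_K : ∀ i w, (∀ a, r (w a) ≤ ρ) → 1 ≤ r (w i) → Φ w ∈ K i
  S_K : ∃ ε > 0, ∀ x ∈ S, ∃ i, ∀ y ∈ S, dist x y < ε → y ∈ K i
  Li : Fin j → Set M
  N : Fin j → Set M
  N_K : ∀ i, N i ⊆ K i
  T : Fin j → Set M
  T_cpt : ∀ i, IsCompact (T i)
  near : ∃ ε > 0, ∀ i, ∀ x ∈ Li i, x ∉ N i → ∀ y ∈ Li i, dist x y < ε → y ∈ T i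
  chart : Fin j → M → V
  chart_cont : ∀ i, ContinuousOn (chart i) (T i)
  chart_T : ∀ i, ∀ x ∈ T i, r (chart i x) ≤ ρ
  chart_N : ∀ i, ∀ x ∈ T i, x ∈ N i → 1 ≤ r (chart i x)
  Ψ : Fin j → M × ℝ → M
  Ψ_cont : ∀ i, ContinuousOn (Ψ i) (T i ×ˢ Icc (0 : ℝ) 1)
  Ψ_one : ∀ i, ∀ x ∈ T i, Ψ i (x, 1) = x
  Ψ_zero : ∀ i, ∀ x ∈ T i, Ψ i (x, 0) = Φ (fun a => if a = i then chart i x else v0)
  Ψ_K : ∀ i, ∀ x ∈ T i, x ∈ N i → ∀ s ∈ Icc (0 : ℝ) 1, Ψ i (x, s) ∈ K i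

theorem mem_of_both {α : Type} {P Q : List α → Prop} {c : Ch k α} (h : c ∈ Sp k P)
    (h' : c ∈ Sp k Q) : c ∈ Sp k (fun l => P l ∧ Q l) := by
  rw [Finsupp.mem_supported] at h h' ⊢
  exact fun l hl => ⟨h hl, h' hl⟩

/-- Splitting a chain. -/
theorem exists_split {α : Type} {P : List α → Prop} (Q : List α → Prop) {c : Ch k α}
    (h : c ∈ Sp k P) : ∃ c₁ c₂ : Ch k α, c = c₁ + c₂ ∧ c₁ ∈ Sp k (fun l => P l ∧ ¬ Q l) ∧
      c₂ ∈ Sp k (fun l => P l ∧ Q l) := by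
  classical
  rw [Finsupp.mem_supported] at h
  refine ⟨c.filter fun l => ¬ Q l, c.filter Q, ?_, ?_, ?_⟩
  · rw [add_comm, Finsupp.filter_add_filter_not]
  · rw [Finsupp.mem_supported]
    intro l hl
    have hl' : l ∈ (c.filter fun l => ¬ Q l).support := hl
    rw [Finsupp.support_filter, Finset.mem_filter] at hl'
    exact ⟨h hl'.1, hl'.2⟩
  · rw [Finsupp.mem_supported]
    intro l hl
    have hl' : l ∈ (c.filter Q).support := hl
    rw [Finsupp.support_filter, Finset.mem_filter] at hl'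
    exact ⟨h hl'.1, hl'.2⟩

theorem bd_mem_sub {α : Type} {P Q : List α → Prop} {c : Ch k α} (h : c ∈ Sp k P)
    (hPQ : ∀ l l' : List α, P l → l'.length + 1 = l.length → (∀ x ∈ l', x ∈ l) → Q l') :
    bd c ∈ Sp k Q :=
  map_mem bd (fun l hl => by
    rw [bd_single, one_smul]
    exact Sp_mono (fun l' hl' => hPQ l l' hl hl'.1 hl'.2) (N929.bdL_sub l)) h

/-! ### The homotopies to the lines -/

namespace Crd

variable {M : Type} [MetricSpace M] {X S : Set M} {j : ℕ} {V : Type} [MetricSpace V]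
  (C : Crd X S j V)

/-- The big polydisc. -/
def Bg : Set (Fin j → V) := {w | ∀ i, C.r (w i) ≤ C.ρ}

theorem isCompact_Bg : IsCompact C.Bg := by
  have : C.Bg = Set.pi univ fun _ : Fin j => {v : V | C.r v ≤ C.ρ} := by
    ext w
    simp [Bg]
  rw [this]
  exact isCompact_univ_pi fun _ => C.cpt

/-- The coordinates of the homotopy. -/
def hw (i : Fin j) (p : (Fin j → V) × ℝ) : Fin j → V :=
  fun a => if a = i then p.1 i else C.sc p.2 (p.1 a)

theorem hw_cont (i : Fin j) : Continuous (C.hw i) := by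
  refine continuous_pi fun a => ?_
  by_cases h : a = i
  · have : (fun p => C.hw i p a) = fun p : (Fin j → V) × ℝ => p.1 i := by
      funext p
      rw [hw, if_pos h]
    rw [this]
    exact (continuous_apply i).comp continuous_fst
  · have : (fun p => C.hw i p a) = fun p : (Fin j → V) × ℝ => C.sc p.2 (p.1 a) := by
      funext p
      rw [hw, if_neg h]
    rw [this]
    exact C.sc_cont.comp (continuous_snd.prodMk ((continuous_apply a).comp continuous_fst))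

theorem hw_mem (i : Fin j) {p : (Fin j → V) × ℝ} (h1 : p.1 ∈ C.Bg) (h2 : p.2 ∈ Icc (0 : ℝ) 1) :
    C.hw i p ∈ C.Bg := by
  intro a
  rw [hw]
  split_ifs with h
  · exact h1 i
  · exact (C.sc_r p.2 h2 _).trans (h1 a)

theorem hw_self (i : Fin j) (p : (Fin j → V) × ℝ) : C.hw i p i = p.1 i := if_pos rfl

theorem hw_one (i : Fin j) (w : Fin j → V) : C.hw i (w, 1) = w := by
  funext a
  rw [hw]
  split_ifs with h
  · rw [h]
  · exact C.sc_one _

theorem hw_zero (i : Fin j) (w : Fin j → V) :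
    C.hw i (w, 0) = fun a => if a = i then w i else C.v0 := by
  funext a
  rw [hw]
  split_ifs with h
  · rfl
  · exact C.sc_zero _

/-- The homotopy. -/
def Hm (i : Fin j) (p : (Fin j → V) × ℝ) : M := C.Φ (C.hw i p)

theorem Hm_cont : ContinuousOn (fun p => fun i => C.Hm i p) (C.Bg ×ˢ Icc (0 : ℝ) 1) := by
  refine continuousOn_pi.2 fun i => ?_
  exact C.Φ_cont.comp (C.hw_cont i).continuousOn fun p hp => C.hw_mem i hp.1 hp.2

theorem Hm_K (i : Fin j) {p : (Fin j → V) × ℝ} (h1 : p.1 ∈ C.Bg) (h2 : p.2 ∈ Icc (0 : ℝ) 1)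
    (h3 : 1 ≤ C.r (p.1 i)) : C.Hm i p ∈ C.K i :=
  C.Φ_K i _ (C.hw_mem i h1 h2) (by rw [hw_self]; exact h3)

theorem Hm_one (i : Fin j) (w : Fin j → V) : C.Hm i (w, 1) = C.Φ w := by rw [Hm, hw_one]

/-- The point of the line. -/
def ln (i : Fin j) (v : V) : M := C.Φ fun a => if a = i then v else C.v0

theorem Hm_zero (i : Fin j) (w : Fin j → V) : C.Hm i (w, 0) = C.ln i (w i) := by
  rw [Hm, hw_zero, ln]

/-- **The product cochain on the big polydisc is cohomologous to the product of its restrictions to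
the lines.** -/
theorem exists_B {d : ℕ} (hd : 1 ≤ d) {ε : ℝ} (hε : 0 < ε) : ∃ η > 0,
    ∀ x : Fin j → List M → k,
    (∀ i l, l.length = d + 2 → (∀ a ∈ l, ∀ b ∈ l, dist a b < ε) → dl (x i) l = 0) →
    (∀ i l, l.length = d + 1 → SmL (C.K i) ε l → x i l = 0) →
    ∃ B : List (Fin j → V) → k,
      (∀ l, l.length = d * j + 1 → FP (fun _ => {v : V | C.r v ≤ C.ρ}) η l →
        cupF d j (fun i l => x i (l.map C.Φ)) l -
          cupF d j (fun i l => x i (l.map fun w => C.ln i (w i))) l = dl B l) ∧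
      ∀ l, l.length = d * j → FP (fun _ => {v : V | C.r v ≤ C.ρ}) η l →
        (∃ i, ∀ w ∈ l, 1 ≤ C.r (w i)) → B l = 0 := by
  obtain ⟨η, hη, hmod⟩ := Tau.modulus (C.isCompact_Bg.prod isCompact_Icc) C.Hm_cont hε
  refine ⟨η, hη, fun x hx hK => ?_⟩
  obtain ⟨ι, hι⟩ := Tau.exists_isMesh k zero_le_one hη
  have hm1 : ∀ i, ∀ p ∈ C.Bg ×ˢ Icc (0 : ℝ) 1, ∀ q ∈ C.Bg ×ˢ Icc (0 : ℝ) 1, dist p q < η →
      dist (C.Hm i p) (C.Hm i q) < ε := fun i p hp q hq h =>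
    (dist_le_pi_dist (fun i => C.Hm i p) (fun i => C.Hm i q) i).trans_lt (hmod p hp q hq h)
  -- lists at a fixed time
  have hfix : ∀ i, ∀ s ∈ Icc (0 : ℝ) 1, ∀ l : List (Fin j → V),
      FP (fun _ => {v : V | C.r v ≤ C.ρ}) η l → ∀ a ∈ l.map (fun w => C.Hm i (w, s)),
      ∀ b ∈ l.map (fun w => C.Hm i (w, s)), dist a b < ε := by
    intro i s hs l hl a ha b hb
    obtain ⟨w, hw, rfl⟩ := List.mem_map.1 ha
    obtain ⟨w', hw', rfl⟩ := List.mem_map.1 hb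
    refine hm1 i (w, s) ⟨fun i => hl.1 w hw i, hs⟩ (w', s) ⟨fun i => hl.1 w' hw' i, hs⟩ ?_
    rw [Prod.dist_eq, dist_self]
    exact max_lt (hl.2 w hw w' hw') hη
  have hgr : ∀ (l : List (Fin j → V)), FP (fun _ => {v : V | C.r v ≤ C.ρ}) η l → ∀ t : List ℝ,
      Tau.Msh 0 1 η t → ∀ L, Gr l t L → (∀ p ∈ L, p ∈ C.Bg ×ˢ Icc (0 : ℝ) 1) ∧
      ∀ p ∈ L, ∀ q ∈ L, dist p q < η := by
    intro l hl t ht L hL
    refine ⟨fun p hp => ⟨hl.1 _ (hL.2 p hp).1, ht.2.1 _ (hL.2 p hp).2⟩, fun p hp q hq => ?_⟩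
    exact max_lt (hl.2 _ (hL.2 p hp).1 _ (hL.2 q hq).1)
      (ht.2.2 _ (hL.2 p hp).2 _ (hL.2 q hq).2)
  refine tele hd (Gd := FP (fun _ => {v : V | C.r v ≤ C.ρ}) η) (fun l l' h hl => hl.sub l l' h) j
    (fun i l => x i (l.map C.Φ)) (fun i l => x i (l.map fun w => C.ln i (w i)))
    (fun i l => -(-1) ^ d * Sl.fib (fun L : List ((Fin j → V) × ℝ) => x i (L.map (C.Hm i))) ι l)
    (fun i l => ∀ w ∈ l, 1 ≤ C.r (w i)) ?_ ?_ ?_ ?_ ?_ ?_ ?_
  · intro i l hl hg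
    rw [Sl.dl_map (x i) C.Φ]
    refine hx i _ (by rw [List.length_map]; exact hl) ?_
    have := hfix i 1 ⟨zero_le_one, le_rfl⟩ l hg
    simp only [C.Hm_one] at this
    exact this
  · intro i l hl hg
    rw [Sl.dl_map (x i) (fun w : Fin j → V => C.ln i (w i))]
    refine hx i _ (by rw [List.length_map]; exact hl) ?_
    have := hfix i 0 ⟨le_rfl, zero_le_one⟩ l hg
    simp only [C.Hm_zero] at this
    exact this
  · intro i l hl hg
    rw [Sl.dl_mul_left, Sl.dl_fib _ hι.ln hι.bd (p := d) hl]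
    have e1 : Sl.fib (dl fun L : List ((Fin j → V) × ℝ) => x i (L.map (C.Hm i))) ι l = 0 := by
      refine ev_zero_of (P := fun L => L.length = d + 2 ∧ (∀ p ∈ L, p ∈ C.Bg ×ˢ Icc (0 : ℝ) 1) ∧
        ∀ p ∈ L, ∀ q ∈ L, dist p q < η) (fun L hL => ?_)
        (sh_mem (P := fun s => s = l) (Q := Tau.Msh 0 1 η) (fun s t L hs ht hL => ?_)
          (single_mem (P := fun s => s = l) rfl 1) hι.mem)
      · rw [Sl.dl_map (x i) (C.Hm i)]
        refine hx i _ (by rw [List.length_map]; exact hL.1) fun a ha b hb => ?_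
        obtain ⟨p, hp, rfl⟩ := List.mem_map.1 ha
        obtain ⟨q, hq, rfl⟩ := List.mem_map.1 hb
        exact hm1 i p (hL.2.1 p hp) q (hL.2.1 q hq) (hL.2.2 p hp q hq)
      · subst hs
        refine ⟨?_, hgr s hg t ht L hL⟩
        have h1 := hL.1
        have h2 := ht.1
        omega
    rw [e1]
    simp only [List.map_map]
    have e2 : (C.Hm i ∘ fun a => (a, (1 : ℝ))) = C.Φ := funext fun w => C.Hm_one i w
    have e3 : (C.Hm i ∘ fun a => (a, (0 : ℝ))) = fun w => C.ln i (w i) :=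
      funext fun w => C.Hm_zero i w
    rw [e2, e3]
    have hs : (-1 : k) ^ d * (-1) ^ d = 1 := by
      rw [← mul_pow]
      simp
    linear_combination (-(x i (l.map C.Φ) - x i (l.map fun w => C.ln i (w i)))) * hs
  · exact fun i l l' h hB w hw => hB w (h w hw)
  · intro i l hl hg hB
    refine hK i _ (by rw [List.length_map]; exact hl) ⟨fun a ha => ?_, ?_⟩
    · obtain ⟨w, hw, rfl⟩ := List.mem_map.1 ha
      exact C.Φ_K i w (hg.1 w hw) (hB w hw)
    · have := hfix i 1 ⟨zero_le_one, le_rfl⟩ l hg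
      simp only [C.Hm_one] at this
      exact this
  · intro i l hl hg hB
    have h0 := hfix i 0 ⟨le_rfl, zero_le_one⟩ l hg
    simp only [C.Hm_zero] at h0
    refine hK i _ (by rw [List.length_map]; exact hl) ⟨fun a ha => ?_, h0⟩
    obtain ⟨w, hw, rfl⟩ := List.mem_map.1 ha
    rw [← C.Hm_zero]
    exact C.Hm_K i (hg.1 w hw) ⟨le_rfl, zero_le_one⟩ (hB w hw)
  · intro i l hl hg hB
    have e1 : Sl.fib (fun L : List ((Fin j → V) × ℝ) => x i (L.map (C.Hm i))) ι l = 0 := by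
      refine ev_zero_of (P := fun L => L.length = d + 1 ∧ ((∀ p ∈ L, p ∈ C.Bg ×ˢ Icc (0 : ℝ) 1) ∧
        ∀ p ∈ L, ∀ q ∈ L, dist p q < η) ∧ ∀ p ∈ L, 1 ≤ C.r (p.1 i)) (fun L hL => ?_)
        (sh_mem (P := fun s => s = l) (Q := Tau.Msh 0 1 η) (fun s t L hs ht hL => ?_)
          (single_mem (P := fun s => s = l) rfl 1) hι.mem)
      · refine hK i _ (by rw [List.length_map]; exact hL.1) ⟨fun a ha => ?_, fun a ha b hb => ?_⟩
        · obtain ⟨p, hp, rfl⟩ := List.mem_map.1 ha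
          exact C.Hm_K i (hL.2.1.1 p hp).1 (hL.2.1.1 p hp).2 (hL.2.2 p hp)
        · obtain ⟨p, hp, rfl⟩ := List.mem_map.1 ha
          obtain ⟨q, hq, rfl⟩ := List.mem_map.1 hb
          exact hm1 i p (hL.2.1.1 p hp) q (hL.2.1.1 q hq) (hL.2.1.2 p hp q hq)
      · subst hs
        refine ⟨?_, hgr s hg t ht L hL, fun p hp => hB _ (hL.2 p hp).1⟩
        have h1 := hL.1
        have h2 := ht.1
        omega
    rw [e1, mul_zero]

end Crd

end Vale.Agent.P216.H347C
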