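import Vale.Agent.P216.H347C.Core

/-!
# P216-C, [RING]: the core theorem
-/

open Finsupp Set

namespace Vale.Agent.P216.H347C

open Vale.Agent.P216.Sl Vale.Agent.P216.PS

variable {k : Type} [Field k] {M : Type} [MetricSpace M] {X S : Set M} {j : ℕ} {V : Type}
  [MetricSpace V]

namespace Crd

variable (C : Crd X S j V)

/-- From a cycle of a line to a relative cycle of the ball. -/
theorem exists_zc (i : Fin j) {d : ℕ} {η ε : ℝ} (hη : 0 < η) (hε : 0 < ε) : ∃ η' > 0,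
    η' ≤ ε ∧ ∀ (x : List M → k) (z : Ch k M),
    (∀ l, l.length = d + 2 → (∀ a ∈ l, ∀ b ∈ l, dist a b < ε) → dl x l = 0) →
    (∀ l, l.length = d + 1 → SmL (C.K i) ε l → x l = 0) →
    z ∈ Sp k (fun l => l.length = d + 1 ∧ N929.Fine (C.Li i) η' l) → bd z = 0 →
    ∃ zc : Ch k V,
      zc ∈ Sp k (fun l => l.length = d + 1 ∧ N929.Fine {v : V | C.r v ≤ C.ρ} η l) ∧
      bd zc ∈ Sp k (fun l => l.length = d ∧ N929.Fine {v : V | C.r v ≤ C.ρ} η l ∧
        ∀ v ∈ l, v ∈ {v : V | 1 ≤ C.r v}) ∧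
      ev (fun l => x (l.map (C.ln i))) zc = ev x z := by
  obtain ⟨εn, hεn, hnear⟩ := C.near
  obtain ⟨ηc, hηc, hmod⟩ := Tau.modulus (C.T_cpt i) (C.chart_cont i) hη
  obtain ⟨ηh, hηh, hmodh⟩ := Tau.modulus ((C.T_cpt i).prod isCompact_Icc) (C.Ψ_cont i) hε
  refine ⟨min εn (min ε (min ηc ηh)), lt_min hεn (lt_min hε (lt_min hηc hηh)),
    (min_le_right _ _).trans (min_le_left _ _), fun x z hxc hx hz hbz => ?_⟩
  set η' := min εn (min ε (min ηc ηh)) with hη'
  have e1 : η' ≤ εn := min_le_left _ _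
  have e2 : η' ≤ ε := (min_le_right _ _).trans (min_le_left _ _)
  have e3 : η' ≤ ηc := (min_le_right _ _).trans ((min_le_right _ _).trans (min_le_left _ _))
  have e4 : η' ≤ ηh := (min_le_right _ _).trans ((min_le_right _ _).trans (min_le_right _ _))
  obtain ⟨z1, z2, hz12, hz1, hz2⟩ := exists_split (fun l => ∀ a ∈ l, a ∈ C.N i) hz
  have hz1' : z1 ∈ Sp k (fun l => l.length = d + 1 ∧ N929.Fine (C.T i) η' l) := by
    refine Sp_mono (fun l hl => ⟨hl.1.1, fun y hy => ?_, hl.1.2.2⟩) hz1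
    have h := hl.2
    push Not at h
    obtain ⟨a, ha, haN⟩ := h
    exact hnear i a (hl.1.2.1 a ha) haN y (hl.1.2.1 y hy) ((hl.1.2.2 a ha y hy).trans_le e1)
  have hb1 : bd z1 ∈ Sp k (fun l => (l.length = d ∧ N929.Fine (C.T i) η' l) ∧
      ∀ a ∈ l, a ∈ C.N i) := by
    refine mem_of_both ?_ ?_
    · refine bd_mem_sub hz1' fun l l' hl h1 h2 => ⟨?_, hl.2.sub h2⟩
      have := hl.1
      omega
    · have hb : bd z1 = -bd z2 := by
        rw [hz12, map_add] at hbz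
        exact eq_neg_of_add_eq_zero_left hbz
      rw [hb]
      exact Submodule.neg_mem _ (bd_mem_sub hz2 fun l l' hl _ h2 a ha => hl.2 a (h2 a ha))
  have hfc : ∀ l, N929.Fine (C.T i) η' l →
      N929.Fine {v : V | C.r v ≤ C.ρ} η (l.map (C.chart i)) := by
    intro l hl
    refine ⟨fun v hv => ?_, fun v hv v' hv' => ?_⟩
    · obtain ⟨a, ha, rfl⟩ := List.mem_map.1 hv
      exact C.chart_T i a (hl.1 a ha)
    · obtain ⟨a, ha, rfl⟩ := List.mem_map.1 hv
      obtain ⟨a', ha', rfl⟩ := List.mem_map.1 hv'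
      exact hmod a (hl.1 a ha) a' (hl.1 a' ha') ((hl.2 a ha a' ha').trans_le e3)
  refine ⟨mp (C.chart i) z1, ?_, ?_, ?_⟩
  · refine map_mem _ (fun l hl => ?_) hz1'
    rw [mp_single]
    exact single_mem ⟨by rw [List.length_map]; exact hl.1, hfc l hl.2⟩ _
  · rw [bd_mp]
    refine map_mem _ (fun l hl => ?_) hb1
    rw [mp_single]
    refine single_mem ⟨by rw [List.length_map]; exact hl.1.1, hfc l hl.1.2, fun v hv => ?_⟩ _
    obtain ⟨a, ha, rfl⟩ := List.mem_map.1 hv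
    exact C.chart_N i a (hl.1.2.1 a ha) (hl.2 a ha)
  · rw [ev_mp]
    obtain ⟨ι, hι⟩ := Tau.exists_isMesh k zero_le_one hηh
    have hgr : ∀ s t L, N929.Fine (C.T i) η' s → Tau.Msh 0 1 ηh t → Gr s t L →
        (∀ p ∈ L, p ∈ C.T i ×ˢ Icc (0 : ℝ) 1) ∧ ∀ a ∈ L.map (C.Ψ i), ∀ b ∈ L.map (C.Ψ i),
          dist a b < ε := by
      intro s t L hs ht hL
      have hp : ∀ p ∈ L, p ∈ C.T i ×ˢ Icc (0 : ℝ) 1 := fun p hp =>
        ⟨hs.1 _ (hL.2 p hp).1, ht.2.1 _ (hL.2 p hp).2⟩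
      refine ⟨hp, fun a ha b hb => ?_⟩
      obtain ⟨p, hpL, rfl⟩ := List.mem_map.1 ha
      obtain ⟨q, hqL, rfl⟩ := List.mem_map.1 hb
      refine hmodh p (hp p hpL) q (hp q hqL) (max_lt ?_ ?_)
      · exact (hs.2 _ (hL.2 p hpL).1 _ (hL.2 q hqL).1).trans_le e4
      · exact ht.2.2 _ (hL.2 p hpL).2 _ (hL.2 q hqL).2
    have hh := Tau.hom x (p := d) (Sp_mono (fun l hl => hl.1) hz1') hι.ln hι.bd (C.Ψ i) ?_ ?_
    · rw [ev_mp, ev_mp] at hh
      have h1 : ev (fun l => x ((l.map (C.chart i)).map (C.ln i))) z1 = ev x z1 := by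
        have h3 : ev (fun l => x ((l.map (C.chart i)).map (C.ln i))) z1 =
            ev (fun l => x (l.map fun a => C.Ψ i (a, 0))) z1 := by
          refine ev_congr (fun l hl => ?_) hz1'
          rw [List.map_map]
          congr 1
          exact List.map_congr_left fun a ha => (C.Ψ_zero i a (hl.2.1 a ha)).symm
        have h4 : ev (fun l => x (l.map fun a => C.Ψ i (a, 1))) z1 = ev x z1 := by
          refine ev_congr (fun l hl => ?_) hz1'
          congr 1
          conv_rhs => rw [← List.map_id l]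
          exact List.map_congr_left fun a ha => C.Ψ_one i a (hl.2.1 a ha)
        rw [h3, ← hh, h4]
      have h2 : ev x z2 = 0 := by
        refine ev_zero_of (fun l hl => hx l hl.1.1 ⟨fun a ha => C.N_K i (hl.2 a ha), ?_⟩) hz2
        exact fun a ha b hb => (hl.1.2.2 a ha b hb).trans_le e2
      rw [h1, hz12, map_add, h2, add_zero]
    · rw [ev_mp]
      refine ev_zero_of (P := fun L => L.length = d + 2 ∧ ∀ a ∈ L.map (C.Ψ i),
        ∀ b ∈ L.map (C.Ψ i), dist a b < ε) (fun L hL => ?_)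
        (sh_mem (fun s t L hs ht hL => ⟨?_, (hgr s t L hs.2 ht hL).2⟩) hz1' hι.mem)
      · exact hxc _ (by rw [List.length_map]; exact hL.1) hL.2
      · have h1 := hL.1
        have h2 := ht.1
        have h3 := hs.1
        omega
    · rw [ev_mp]
      refine ev_zero_of (P := fun L => L.length = d + 1 ∧ SmL (C.K i) ε (L.map (C.Ψ i)))
        (fun L hL => ?_)
        (sh_mem (fun s t L hs ht hL => ⟨?_, fun a ha => ?_, (hgr s t L hs.1.2 ht hL).2⟩)
          hb1 hι.mem)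
      · exact hx _ (by rw [List.length_map]; exact hL.1) hL.2
      · have h1 := hL.1
        have h2 := ht.1
        have h3 := hs.1.1
        omega
      · obtain ⟨p, hp, rfl⟩ := List.mem_map.1 ha
        have h1 := (hgr s t L hs.1.2 ht hL).1 p hp
        exact C.Ψ_K i p.1 h1.1 (hs.2 _ (hL.2 p hp).1) p.2 h1.2

theorem cupF_map {α β : Type} (d : ℕ) (u : α → β) : ∀ (j : ℕ) (f : Fin j → List β → k)
    (l : List α), cupF d j f (l.map u) = cupF d j (fun i l => f i (l.map u)) l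
  | 0, f, l => by simp only [cupF_zero, List.length_map]
  | j + 1, f, l => by
    rw [cupF_succ, cupF_succ, cup, cup, ← List.map_take, ← List.map_drop, cupF_map d u j]

/-- **The core theorem.** -/
theorem core {d : ℕ} (hd : 1 ≤ d) (hj : 1 ≤ j) {ε₀ : ℝ} (hε₀ : 0 < ε₀) {ξ : List M → k}
    (hξ : ∀ l, l.length = d + 2 → SmL (univ : Set M) ε₀ l → dl ξ l = 0)
    (x b : Fin j → List M → k) (hN : ∀ i, Nrm (x i))
    (hx : ∀ i l, l.length = d + 2 → SmL (univ : Set M) ε₀ l → dl (x i) l = 0)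
    (hxb : ∀ i l, l.length = d + 1 → SmL (univ : Set M) ε₀ l → ξ l - x i l = dl (b i) l)
    (hK : ∀ i l, l.length = d + 1 → SmL (C.K i) ε₀ l → x i l = 0)
    (hline : ∀ i, ∀ ε > 0, ∃ z : Ch k M, N929.Cy (C.Li i) ε d z ∧ ev ξ z ≠ 0)
    (hS : ∀ g : List M → k, CocL S (d * j - 1) g → ExL S (d * j - 1) g) :
    ¬ ExL X (d * j) (cupF d j fun _ => ξ) := by
  rintro ⟨g, -, ε₁, hε₁, hg⟩
  have hdj : 1 ≤ d * j := Nat.mul_pos hd hj
  -- the product of the `x i`
  obtain ⟨B₁, hB₁, -⟩ := tele hd (Gd := SmL (univ : Set M) ε₀) (fun l l' h hl =>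
    ⟨fun x hx => mem_univ _, fun x hx y hy => hl.2 x (h x hx) y (h y hy)⟩) j (fun _ => ξ) x b
    (fun _ _ => False) (fun _ => hξ) hx hxb (fun _ _ _ _ h => h) (fun _ _ _ _ h => h.elim)
    (fun _ _ _ _ h => h.elim) (fun _ _ _ _ h => h.elim)
  set G : List M → k := fun l => g l + (-1) * B₁ l with hGdef
  have hG : ∀ l, l.length = d * j + 1 → SmL X (min ε₀ ε₁) l → cupF d j x l = dl G l := by
    intro l hl hs
    have h1 := hB₁ l hl ⟨fun x _ => mem_univ _, fun x hx y hy =>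
      (hs.2 x hx y hy).trans_le (min_le_left _ _)⟩
    have h2 := hg l hl (hs.mono subset_rfl (min_le_right _ _))
    have h3 : dl G l = dl g l + (-1) * dl B₁ l := by
      rw [hGdef, Sl.dl_add, Sl.dl_mul_left]
    rw [h3, ← h1, ← h2]
    ring
  -- `G` is exact on `S`
  obtain ⟨εS, hεS, hSK⟩ := C.S_K
  have hGS : CocL S (d * j - 1) G := by
    refine ⟨min (min ε₀ ε₁) εS, lt_min (lt_min hε₀ hε₁) hεS, fun l hl hs => ?_⟩
    rw [← hG l (by omega) (hs.mono C.S_X (min_le_left _ _))]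
    obtain ⟨a, ha⟩ : ∃ a, a ∈ l := by
      obtain ⟨a, l, rfl⟩ := List.exists_cons_of_length_pos (l := l) (by omega)
      exact ⟨a, List.mem_cons_self⟩
    obtain ⟨i, hi⟩ := hSK a (hs.1 a ha)
    refine cupF_eq_zero (d := d) (Q := fun l => SmL (C.K i) ε₀ l) (fun l l' h hl =>
      ⟨fun x hx => hl.1 x (h x hx), fun x hx y hy => hl.2 x (h x hx) y (h y hy)⟩) j x i
      (hK i) l (by omega) ⟨fun y hy => hi y (hs.1 y hy) ((hs.2 a ha y hy).trans_le
        (min_le_right _ _)), fun y hy y' hy' => (hs.2 y hy y' hy').trans_le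
        ((min_le_left _ _).trans (min_le_left _ _))⟩
  obtain ⟨h, -, ε₂, hε₂, hh⟩ := hS G hGS
  -- scales
  obtain ⟨η₁, hη₁, hBex⟩ := C.exists_B (k := k) hd hε₀
  obtain ⟨η₂, hη₂, hmod⟩ := Tau.modulus C.isCompact_Bg C.Φ_cont
    (lt_min (lt_min hε₀ hε₁) hε₂ : 0 < min (min ε₀ ε₁) ε₂)
  have hη : 0 < min η₁ η₂ := lt_min hη₁ hη₂
  choose η' hη' hη'ε hzc using fun i => C.exists_zc (k := k) i (d := d) hη hε₀
  choose z hz hzne using fun i => hline i (η' i) (hη' i)
  have hbz : ∀ i, bd (z i) = 0 := fun i => N929.bd_eq_zero (hz i) (by omega)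
  choose zc hzc1 hzc2 hzc3 using fun i => hzc i (x i) (z i)
    (fun l hl hs => hx i l hl ⟨fun _ _ => mem_univ _, hs⟩) (hK i) (hz i).1 (hbz i)
  have hZ := prc_mem (d := d) hη j zc (fun _ => {v : V | C.r v ≤ C.ρ}) hzc1
  have hbZ := bd_prc (d := d) hd hη j zc (fun _ => {v : V | C.r v ≤ C.ρ})
    (fun _ => {v : V | 1 ≤ C.r v}) hzc1 hzc2
  set Z := prc j zc with hZdef
  have hbZ' : bd Z ∈ Sp k (fun l => l.length = d * j ∧
      FP (fun _ => {v : V | C.r v ≤ C.ρ}) (min η₁ η₂) l ∧ ∃ i, ∀ w ∈ l, 1 ≤ C.r (w i)) := by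
    refine Sp_mono (fun l hl => ⟨hl.1, hl.2.1, ?_⟩) hbZ
    rcases hl.2.2 with h0 | h0
    · exfalso
      have := hl.1
      rw [h0, List.length_nil] at this
      omega
    · exact h0
  have hfm : ∀ l, FP (fun _ => {v : V | C.r v ≤ C.ρ}) (min η₁ η₂) l → ∀ a ∈ l.map C.Φ,
      ∀ b ∈ l.map C.Φ, dist a b < min (min ε₀ ε₁) ε₂ := by
    intro l hl a ha b hb
    obtain ⟨w, hw, rfl⟩ := List.mem_map.1 ha
    obtain ⟨w', hw', rfl⟩ := List.mem_map.1 hb
    exact hmod w (fun i => hl.1 w hw i) w' (fun i => hl.1 w' hw' i)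
      ((hl.2 w hw w' hw').trans_le (min_le_right _ _))
  -- first computation
  have c1 : ev (cupF d j x) (mp C.Φ Z) = 0 := by
    have s1 : ev (cupF d j x) (mp C.Φ Z) = ev (dl G) (mp C.Φ Z) := by
      refine ev_congr (P := fun l => l.length = d * j + 1 ∧ SmL X (min ε₀ ε₁) l)
        (fun l hl => hG l hl.1 hl.2) (map_mem _ (fun l hl => ?_) hZ)
      rw [mp_single]
      refine single_mem ⟨by rw [List.length_map]; exact hl.1, fun a ha => ?_, fun a ha b hb =>
        (hfm l hl.2 a ha b hb).trans_le (min_le_left _ _)⟩ _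
      obtain ⟨w, hw, rfl⟩ := List.mem_map.1 ha
      exact C.Φ_X w fun i => hl.2.1 w hw i
    have s2 : ev G (bd (mp C.Φ Z)) = ev (dl h) (bd (mp C.Φ Z)) := by
      rw [bd_mp]
      refine ev_congr (P := fun l => l.length = d * j - 1 + 1 ∧ SmL S ε₂ l)
        (fun l hl => hh l hl.1 hl.2) (map_mem _ (fun l hl => ?_) hbZ')
      rw [mp_single]
      refine single_mem ⟨?_, fun a ha => ?_, fun a ha b hb =>
        (hfm l hl.2.1 a ha b hb).trans_le (min_le_right _ _)⟩ _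
      · rw [List.length_map, hl.1]
        omega
      · obtain ⟨w, hw, rfl⟩ := List.mem_map.1 ha
        obtain ⟨i, hi⟩ := hl.2.2
        exact C.Φ_S w (fun i => hl.2.1.1 w hw i) ⟨i, hi w hw⟩
    rw [s1, ev_dl, s2, ev_dl, bd_bd, map_zero]
  -- second computation
  obtain ⟨B₂, hB₂, hB₂'⟩ := hBex x (fun i l hl hs => hx i l hl ⟨fun _ _ => mem_univ _, hs⟩) hK
  have c2 : ev (cupF d j x) (mp C.Φ Z) = ∏ i, ev ξ (z i) := by
    rw [ev_mp]
    have s1 : ev (fun l => cupF d j x (l.map C.Φ)) Z =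
        ev (fun l => cupF d j (fun i l => x i (l.map fun w => C.ln i (w i))) l + dl B₂ l) Z := by
      refine ev_congr (fun l hl => ?_) hZ
      rw [cupF_map, ← hB₂ l hl.1 ⟨hl.2.1, fun a ha b hb => (hl.2.2 a ha b hb).trans_le
        (min_le_left _ _)⟩]
      ring
    have s2 : ev B₂ (bd Z) = 0 := ev_zero_of (fun l hl => hB₂' l hl.1 ⟨hl.2.1.1,
      fun a ha b hb => (hl.2.1.2 a ha b hb).trans_le (min_le_left _ _)⟩ hl.2.2) hbZ'
    rw [s1, ev_add_fun]
    have s3 : ev (fun l => dl B₂ l) Z = 0 := by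
      have : ev (fun l => dl B₂ l) Z = ev (dl B₂) Z := rfl
      rw [this, ev_dl, s2]
    rw [s3, add_zero]
    have s4 := ev_prc (k := k) (d := d) j (fun i l => x i (l.map (C.ln i)))
      (fun i => (hN i).map (C.ln i)) zc (fun i => Sp_mono (fun l hl => hl.1) (hzc1 i))
    have s5 : (fun i => fun l : List (Fin j → V) => x i ((l.map fun w => w i).map (C.ln i))) =
        fun i l => x i (l.map fun w => C.ln i (w i)) := by
      funext i l
      rw [List.map_map]
      rfl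
    have s6 : ev (fun l => cupF d j (fun i l => x i (l.map fun w => C.ln i (w i))) l) Z =
        ∏ i, ev (fun l => x i (l.map (C.ln i))) (zc i) := by
      rw [← s4, ← s5]
    rw [s6]
    refine Finset.prod_congr rfl fun i _ => ?_
    rw [hzc3 i]
    have s7 : ev ξ (z i) = ev (fun l => x i l + dl (b i) l) (z i) := by
      refine ev_congr (fun l hl => ?_) (hz i).1
      rw [← hxb i l hl.1 ⟨fun _ _ => mem_univ _, fun a ha b hb =>
        (hl.2.2 a ha b hb).trans_le (hη'ε i)⟩]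
      ring
    have s8 : ev (fun l => dl (b i) l) (z i) = 0 := by
      have : ev (fun l => dl (b i) l) (z i) = ev (dl (b i)) (z i) := rfl
      rw [this, ev_dl, hbz i, map_zero]
    rw [s7, ev_add_fun, s8, add_zero]
  rw [c1] at c2
  exact (Finset.prod_ne_zero_iff.2 fun i _ => hzne i) c2.symm

end Crd

end Vale.Agent.P216.H347C
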