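import Vale.Agent.P216.H787.Fib

/-!
# P216-C, [RING]: products of list cochains, telescoping, product chains
-/

open Finsupp Set

namespace Vale.Agent.P216.H347C

open Vale.Agent.P216.Sl

variable {k : Type} [Field k] {α : Type}

/-- The cup product of `j` cochains of degree `d`. -/
noncomputable def cupF (d : ℕ) : ∀ j : ℕ, (Fin j → List α → k) → List α → k
  | 0, _ => fun l => if l.length = 1 then 1 else 0
  | j + 1, f => cup d (f 0) (cupF d j fun i => f i.succ)

theorem cupF_zero (d : ℕ) (f : Fin 0 → List α → k) :
    cupF d 0 f = fun l => if l.length = 1 then 1 else 0 := rfl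

theorem cupF_succ (d j : ℕ) (f : Fin (j + 1) → List α → k) :
    cupF d (j + 1) f = cup d (f 0) (cupF d j fun i => f i.succ) := rfl

theorem dl_one1 {l : List α} (hl : l.length = 2) :
    dl (fun l : List α => if l.length = 1 then (1 : k) else 0) l = 0 := by
  obtain ⟨x, y, rfl⟩ := List.length_eq_two.1 hl
  rw [dl_cons, dl_cons, dl_nil]
  simp

section

variable {d : ℕ} {Gd : List α → Prop}

/-- The product of cocycles is a cocycle. -/
theorem dl_cupF (hG : ∀ l l' : List α, (∀ x ∈ l', x ∈ l) → Gd l → Gd l') : ∀ (j : ℕ)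
    (f : Fin j → List α → k), (∀ i l, l.length = d + 2 → Gd l → dl (f i) l = 0) →
    ∀ l, l.length = d * j + 2 → Gd l → dl (cupF d j f) l = 0
  | 0, f, _, l, hl, _ => by
    rw [cupF_zero]
    exact dl_one1 (by simpa using hl)
  | j + 1, f, hf, l, hl, hg => by
    have hl' : l.length = d * j + d + 2 := by rw [hl]; ring
    rw [cupF_succ, dl_cup _ _ _ _ (by omega), cup, cup,
      hf 0 _ (by rw [List.length_take]; omega)
        (hG l _ (fun x hx => List.mem_of_mem_take hx) hg),
      dl_cupF hG j _ (fun i => hf i.succ) _ (by rw [List.length_drop]; omega)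
        (hG l _ (fun x hx => List.mem_of_mem_drop hx) hg)]
    ring

/-- The product vanishes if one factor does. -/
theorem cupF_eq_zero {Q : List α → Prop} (hQ : ∀ l l' : List α, (∀ x ∈ l', x ∈ l) → Q l → Q l') :
    ∀ (j : ℕ) (f : Fin j → List α → k) (i : Fin j),
    (∀ l, l.length = d + 1 → Q l → f i l = 0) → ∀ l, l.length = d * j + 1 → Q l →
    cupF d j f l = 0
  | 0, _, i, _, _, _, _ => i.elim0
  | j + 1, f, i, hf, l, hl, hg => by
    have hl' : l.length = d * j + d + 1 := by rw [hl]; ring
    rw [cupF_succ, cup]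
    refine Fin.cases (fun hf => ?_) (fun i hf => ?_) i hf
    · rw [hf _ (by rw [List.length_take]; omega)
        (hQ l _ (fun x hx => List.mem_of_mem_take hx) hg), zero_mul]
    · rw [cupF_eq_zero hQ j _ i hf _ (by rw [List.length_drop]; omega)
        (hQ l _ (fun x hx => List.mem_of_mem_drop hx) hg), mul_zero]

/-- **Telescoping.** -/
theorem tele (hd : 1 ≤ d) (hG : ∀ l l' : List α, (∀ x ∈ l', x ∈ l) → Gd l → Gd l') : ∀ (j : ℕ)
    (X Θ b : Fin j → List α → k) (Bd : Fin j → List α → Prop),
    (∀ i l, l.length = d + 2 → Gd l → dl (X i) l = 0) →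
    (∀ i l, l.length = d + 2 → Gd l → dl (Θ i) l = 0) →
    (∀ i l, l.length = d + 1 → Gd l → X i l - Θ i l = dl (b i) l) →
    (∀ i, ∀ l l' : List α, (∀ x ∈ l', x ∈ l) → Bd i l → Bd i l') →
    (∀ i l, l.length = d + 1 → Gd l → Bd i l → X i l = 0) →
    (∀ i l, l.length = d + 1 → Gd l → Bd i l → Θ i l = 0) →
    (∀ i l, l.length = d → Gd l → Bd i l → b i l = 0) →
    ∃ B : List α → k, (∀ l, l.length = d * j + 1 → Gd l →
      cupF d j X l - cupF d j Θ l = dl B l) ∧
      ∀ l, l.length = d * j → Gd l → (∃ i, Bd i l) → B l = 0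
  | 0, X, Θ, b, Bd, _, _, _, _, _, _, _ => by
    refine ⟨fun _ => 0, fun l _ _ => ?_, fun _ _ _ _ => rfl⟩
    rw [cupF_zero, cupF_zero, sub_self]
    exact (ev_zero_fun _).symm
  | j + 1, X, Θ, b, Bd, hX, hΘ, hb, hB, hXB, hΘB, hbB => by
    obtain ⟨B, h1, h2⟩ := tele hd hG j (fun i => X i.succ) (fun i => Θ i.succ)
      (fun i => b i.succ) (fun i => Bd i.succ) (fun i => hX i.succ) (fun i => hΘ i.succ)
      (fun i => hb i.succ) (fun i => hB i.succ) (fun i => hXB i.succ) (fun i => hΘB i.succ)
      (fun i => hbB i.succ)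
    obtain ⟨e, rfl⟩ : ∃ e, d = e + 1 := ⟨d - 1, by omega⟩
    set P' := cupF (e + 1) j fun i => Θ i.succ with hP'
    set P := cupF (e + 1) j fun i => X i.succ with hP
    have key : ∀ l : List α, l.length = (e + 1) * (j + 1) + 1 → Gd l →
        dl (cup e (b 0) P') l = (X 0 (l.take (e + 1 + 1)) - Θ 0 (l.take (e + 1 + 1))) *
          P' (l.drop (e + 1)) := by
      intro l hl hg
      have hl' : l.length = (e + 1) * j + e + 2 := by rw [hl]; ring
      rw [dl_cup _ _ _ _ (by omega), cup, cup,
        dl_cupF hG j _ (fun i => hΘ i.succ) _ (by rw [List.length_drop]; omega)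
          (hG l _ (fun x hx => List.mem_of_mem_drop hx) hg),
        hb 0 _ (by rw [List.length_take]; omega)
          (hG l _ (fun x hx => List.mem_of_mem_take hx) hg)]
      ring
    rcases Nat.eq_zero_or_pos j with rfl | hj
    · refine ⟨cup e (b 0) P', fun l hl hg => ?_, fun l hl hg hi => ?_⟩
      · rw [key l hl hg, cupF_succ, cupF_succ, cup, cup, ← hP, ← hP']
        have : P (l.drop (e + 1)) = P' (l.drop (e + 1)) := by rw [hP, hP', cupF_zero, cupF_zero]
        rw [this]
        ring
      · obtain ⟨i, hi⟩ := hi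
        rw [cup, hbB 0 _ (by rw [List.length_take]; omega)
          (hG l _ (fun x hx => List.mem_of_mem_take hx) hg)
          (hB 0 l _ (fun x hx => List.mem_of_mem_take hx) ?_), zero_mul]
        have : i = 0 := Fin.ext (by omega)
        rwa [this] at hi
    · have hj' : e + 1 ≤ (e + 1) * j := Nat.le_mul_of_pos_right _ hj
      refine ⟨fun l => (-1) ^ (e + 1) * cup (e + 1) (X 0) B l + cup e (b 0) P' l,
        fun l hl hg => ?_, fun l hl hg hi => ?_⟩
      · have hl' : l.length = (e + 1) * j + e + 2 := by rw [hl]; ring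
        rw [dl_add, dl_mul_left, key l hl hg, dl_cup _ _ _ _ (by omega), cupF_succ, cupF_succ,
          cup, cup, cup, cup, ← hP, ← hP',
          hX 0 _ (by rw [List.length_take]; omega)
            (hG l _ (fun x hx => List.mem_of_mem_take hx) hg),
          ← h1 _ (by rw [List.length_drop]; omega)
            (hG l _ (fun x hx => List.mem_of_mem_drop hx) hg)]
        have hs : (-1 : k) ^ (e + 1) * (-1) ^ (e + 1) = 1 := by
          rw [← mul_pow]
          simp
        linear_combination (-(X 0 (l.take (e + 1 + 1)) * (P (l.drop (e + 1)) -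
          P' (l.drop (e + 1))))) * hs
      · obtain ⟨i, hi⟩ := hi
        have hl' : l.length = (e + 1) * j + e + 1 := by rw [hl]; ring
        beta_reduce
        rw [cup, cup]
        refine Fin.cases (fun hi => ?_) (fun i hi => ?_) i hi
        · rw [hXB 0 _ (by rw [List.length_take]; omega)
            (hG l _ (fun x hx => List.mem_of_mem_take hx) hg)
            (hB 0 l _ (fun x hx => List.mem_of_mem_take hx) hi),
            hbB 0 _ (by rw [List.length_take]; omega)
            (hG l _ (fun x hx => List.mem_of_mem_take hx) hg)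
            (hB 0 l _ (fun x hx => List.mem_of_mem_take hx) hi)]
          ring
        · rw [h2 _ (by rw [List.length_drop]; omega)
            (hG l _ (fun x hx => List.mem_of_mem_drop hx) hg)
            ⟨i, hB i.succ l _ (fun x hx => List.mem_of_mem_drop hx) hi⟩]
          have h3 := cupF_eq_zero (d := e + 1) (Q := fun l => Gd l ∧ Bd i.succ l)
            (fun l l' hs hq => ⟨hG l l' hs hq.1, hB i.succ l l' hs hq.2⟩) j
            (fun i => Θ i.succ) i (fun l h3 h4 => hΘB i.succ l h3 h4.1 h4.2)
            (l.drop e) (by rw [List.length_drop]; omega)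
            ⟨hG l _ (fun x hx => List.mem_of_mem_drop hx) hg,
              hB i.succ l _ (fun x hx => List.mem_of_mem_drop hx) hi⟩
          rw [hP', h3]
          ring

end

/-! ### Product chains -/

section Prod

variable {V : Type}

/-- The product of `j` chains. -/
noncomputable def prc : ∀ j : ℕ, (Fin j → Ch k V) → Ch k (Fin j → V)
  | 0, _ => single [fun i => i.elim0] 1
  | j + 1, z => mp (fun p : V × (Fin j → V) => (Fin.cons p.1 p.2 : Fin (j + 1) → V))
      (sh (z 0) (prc j fun i => z i.succ))

theorem prc_succ (j : ℕ) (z : Fin (j + 1) → Ch k V) :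
    prc (j + 1) z = mp (fun p : V × (Fin j → V) => (Fin.cons p.1 p.2 : Fin (j + 1) → V))
      (sh (z 0) (prc j fun i => z i.succ)) := rfl

theorem prc_ln {d : ℕ} : ∀ (j : ℕ) (z : Fin j → Ch k V), (∀ i, z i ∈ Sp k (Ln (d + 1))) →
    prc j z ∈ Sp k (Ln (d * j + 1))
  | 0, _, _ => single_mem (P := Ln (d * 0 + 1)) (by
      change [fun i : Fin 0 => (i.elim0 : V)].length = d * 0 + 1
      simp) _
  | j + 1, z, hz => by
    rw [prc_succ]
    refine map_mem (P := Ln (d * (j + 1) + 1)) _ (fun l hl => ?_) ?_
    · rw [mp_single]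
      refine single_mem ?_ _
      change (l.map _).length = _
      rw [List.length_map]
      exact hl
    · refine sh_mem (fun s t l hs ht hl => ?_) (hz 0) (prc_ln j _ fun i => hz i.succ)
      have h1 := hl.1
      have h2 : s.length = d + 1 := hs
      have h3 : t.length = d * j + 1 := ht
      change l.length = d * (j + 1) + 1
      rw [Nat.mul_succ]
      omega

/-- The value of a product on a product chain. -/
theorem ev_prc {d : ℕ} : ∀ (j : ℕ) (θ : Fin j → List V → k), (∀ i, Nrm (θ i)) →
    ∀ z : Fin j → Ch k V, (∀ i, z i ∈ Sp k (Ln (d + 1))) →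
    ev (cupF d j fun i => fun l : List (Fin j → V) => θ i (l.map fun x => x i)) (prc j z) =
      ∏ i, ev (θ i) (z i)
  | 0, θ, _, z, _ => by
    rw [prc, ev_single, cupF_zero]
    simp
  | j + 1, θ, hθ, z, hz => by
    have ih := ev_prc j (fun i => θ i.succ) (fun i => hθ i.succ) (fun i => z i.succ)
      fun i => hz i.succ
    set P : List (Fin j → V) → k :=
      cupF d j fun i => fun l : List (Fin j → V) => θ i.succ (l.map fun x => x i) with hP
    have hmap : ∀ l : List (V × (Fin j → V)), (cupF d j fun i => fun l : List (Fin (j + 1) → V) =>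
        θ i.succ (l.map fun x => x i.succ)) (l.map fun p : V × (Fin j → V) =>
          (Fin.cons p.1 p.2 : Fin (j + 1) → V)) = P (l.map Prod.snd) := by
      have gen : ∀ (n : ℕ) (u : Fin n → Fin j) (l : List (V × (Fin j → V))),
          (cupF d n fun i => fun l : List (Fin (j + 1) → V) =>
          θ (u i).succ (l.map fun x => x (u i).succ)) (l.map fun p : V × (Fin j → V) =>
          (Fin.cons p.1 p.2 : Fin (j + 1) → V)) =
          (cupF d n fun i => fun l : List (Fin j → V) => θ (u i).succ (l.map fun x => x (u i)))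
            (l.map Prod.snd) := by
        intro n
        induction n with
        | zero =>
          intro u l
          simp only [cupF_zero, List.length_map]
        | succ n ihn =>
          intro u l
          rw [cupF_succ, cupF_succ, cup, cup, ← List.map_take, ← List.map_take, ← List.map_drop,
            ← List.map_drop, ihn (fun i => u i.succ), List.map_map, List.map_map]
          rfl
      intro l
      exact gen j id l
    rw [prc_succ, ev_mp, Fin.prod_univ_succ, ← ih]
    have e1 : ev (fun l : List (V × (Fin j → V)) => (cupF d (j + 1) fun i =>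
        fun l : List (Fin (j + 1) → V) => θ i (l.map fun x => x i))
          (l.map fun p : V × (Fin j → V) => (Fin.cons p.1 p.2 : Fin (j + 1) → V)))
          (sh (z 0) (prc j fun i => z i.succ)) =
        ev (fun l => θ 0 ((l.take (d + 1)).map Prod.fst) *
          (fun l : List (V × (Fin j → V)) => P (l.map Prod.snd)) (l.drop d))
          (sh (z 0) (prc j fun i => z i.succ)) := by
      refine ev_congr (P := fun _ => True) (fun l _ => ?_) (by simp [Finsupp.mem_supported])
      rw [cupF_succ, cup, ← List.map_take, ← List.map_drop, hmap, List.map_map]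
      rfl
    rw [e1]
    have hp := prc_ln (d := d) j (fun i => z i.succ) fun i => hz i.succ
    have key := eq_of_mem (P := Ln (d + 1))
      (F := ev (fun l => θ 0 ((l.take (d + 1)).map Prod.fst) *
          (fun l : List (V × (Fin j → V)) => P (l.map Prod.snd)) (l.drop d)) ∘ₗ
        (sh (k := k) (α := V) (β := Fin j → V)).flip (prc j fun i => z i.succ))
      (G := (ev P (prc j fun i => z i.succ)) • ev (θ 0)) (fun s hs => ?_) (hz 0)
    · rw [LinearMap.comp_apply, LinearMap.flip_apply, LinearMap.smul_apply, smul_eq_mul] at key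
      rw [key, mul_comm]
    have hs' : s.length = d + 1 := hs
    have key2 := eq_of_mem (P := Ln (d * j + 1))
      (F := ev (fun l => θ 0 ((l.take (d + 1)).map Prod.fst) *
          (fun l : List (V × (Fin j → V)) => P (l.map Prod.snd)) (l.drop d)) ∘ₗ
        (sh (k := k) (α := V) (β := Fin j → V)) (single s 1))
      (G := (θ 0 s) • ev P) (fun t ht => ?_) hp
    · rw [LinearMap.comp_apply, LinearMap.smul_apply, smul_eq_mul] at key2
      rw [LinearMap.comp_apply, LinearMap.flip_apply, LinearMap.smul_apply, smul_eq_mul, ev_single,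
        one_mul, key2, mul_comm]
    have ht' : t.length = d * j + 1 := ht
    rw [LinearMap.comp_apply, LinearMap.smul_apply, smul_eq_mul, ev_single, one_mul, sh_single,
      front_left (hθ 0) (fun l : List (V × (Fin j → V)) => P (l.map Prod.snd)) d s t (by omega) (by rintro rfl; simp at hs')
      (by rintro rfl; simp at ht'), if_pos (by omega), List.take_of_length_le (by omega)]
    obtain ⟨y, hy⟩ : ∃ y, s.drop d = [y] := by
      rw [← List.length_eq_one_iff, List.length_drop, hs']
      omega
    rw [hy, Sh_point_left y (by rintro rfl; simp at ht'), ev_single, one_mul, List.map_map]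
    congr 2
    exact List.map_id t

end Prod

end Vale.Agent.P216.H347C
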