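import Vale.Agent.P216.H347C.Core2

/-!
# P216-C, [RING]: abstract projective spaces and their coordinates
-/

open Finsupp Set

namespace Vale.Agent.P216.H347C

/-- An abstract projective space of dimension `m` over the normed space `V`: homogeneous
coordinates `pt w` for the vectors `w` with one coordinate equal to `one`, charts `ch j`, diagonal
entries `dg`. -/
structure PrSp (M : Type) [MetricSpace M] (V : Type) [NormedAddCommGroup V] [NormedSpace ℝ V]
    (m : ℕ) where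
  one : V
  q : V → ℝ
  q_cont : Continuous q
  q_zero : q 0 = 0
  q_one : q one = 1
  q_nonneg : ∀ v, 0 ≤ q v
  q_eq_zero : ∀ v, q v = 0 → v = 0
  q_smul : ∀ (s : ℝ) (v : V), q (s • v) = s ^ 2 * q v
  q_cpt : ∀ c : ℝ, IsCompact {v : V | q v ≤ c}
  dg : Fin (m + 1) → M → ℝ
  dg_cont : ∀ i, Continuous (dg i)
  dg_nonneg : ∀ i x, 0 ≤ dg i x
  dg_sum : ∀ x, ∑ i, dg i x = 1
  pt : (Fin (m + 1) → V) → M
  pt_cont : ∀ j, ContinuousOn pt {w | w j = one}
  dg_pt : ∀ j w, w j = one → ∀ i, dg i (pt w) = q (w i) / ∑ l, q (w l)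
  ch : Fin (m + 1) → M → Fin (m + 1) → V
  ch_cont : ∀ j, ContinuousOn (ch j) {x | 0 < dg j x}
  ch_self : ∀ j x, 0 < dg j x → ch j x j = one
  q_ch : ∀ j x, 0 < dg j x → ∀ i, q (ch j x i) = dg i x / dg j x
  pt_ch : ∀ j x, 0 < dg j x → pt (ch j x) = x
  perm : ∀ σ : Equiv.Perm (Fin (m + 1)), ∃ e : M ≃ₜ M, ∀ i x, dg i (e x) = dg (σ i) x

namespace PrSp

variable {M : Type} [MetricSpace M] {V : Type} [NormedAddCommGroup V] [NormedSpace ℝ V] {m : ℕ}
  (P : PrSp M V m)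

/-- The handle. -/
def Dd (j : Fin (m + 1)) : Set M := {x | ∀ i, P.dg i x ≤ P.dg j x}

/-- The fat handle. -/
def Kf (j : Fin (m + 1)) : Set M := {x | ∀ i, P.dg i x ≤ 4 * P.dg j x}

/-- The union of the first handles. -/
def LL (j : ℕ) : Set M := {x | ∃ i : Fin (m + 1), i.1 < j ∧ x ∈ P.Dd i}

theorem isClosed_Dd (j : Fin (m + 1)) : IsClosed (P.Dd j) := by
  have : P.Dd j = ⋂ i, {x | P.dg i x ≤ P.dg j x} := by
    ext x
    simp [Dd]
  rw [this]
  exact isClosed_iInter fun i => isClosed_le (P.dg_cont i) (P.dg_cont j)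

theorem isClosed_Kf (j : Fin (m + 1)) : IsClosed (P.Kf j) := by
  have : P.Kf j = ⋂ i, {x | P.dg i x ≤ 4 * P.dg j x} := by
    ext x
    simp [Kf]
  rw [this]
  exact isClosed_iInter fun i => isClosed_le (P.dg_cont i) ((P.dg_cont j).const_mul 4)

theorem Dd_sub_Kf (j : Fin (m + 1)) : P.Dd j ⊆ P.Kf j := fun x hx i => by
  have h1 := hx i
  have h2 := P.dg_nonneg j x
  linarith

theorem Dd_ge {j : Fin (m + 1)} {x : M} (hx : x ∈ P.Dd j) : 1 / ((m : ℝ) + 1) ≤ P.dg j x := by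
  have h1 : ∑ i, P.dg i x ≤ ∑ _i : Fin (m + 1), P.dg j x := Finset.sum_le_sum fun i _ => hx i
  rw [P.dg_sum, Finset.sum_const, Finset.card_univ, Fintype.card_fin, nsmul_eq_mul] at h1
  push_cast at h1
  rw [div_le_iff₀ (by positivity)]
  linarith

theorem Kf_pos {j : Fin (m + 1)} {x : M} (hx : x ∈ P.Kf j) : 0 < P.dg j x := by
  by_contra h
  have h0 : ∀ i, P.dg i x ≤ 0 := fun i => by
    have := hx i
    linarith
  have h1 : ∑ i, P.dg i x ≤ 0 := Finset.sum_nonpos fun i _ => h0 i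
  rw [P.dg_sum] at h1
  linarith

theorem sum_pos {j : Fin (m + 1)} {w : Fin (m + 1) → V} (h : w j = P.one) :
    0 < ∑ l, P.q (w l) := by
  have h1 : P.q (w j) ≤ ∑ l, P.q (w l) :=
    Finset.single_le_sum (f := fun l => P.q (w l)) (fun l _ => P.q_nonneg _) (Finset.mem_univ j)
  rw [h, P.q_one] at h1
  linarith

/-- Comparison of the diagonal entries of `pt w`. -/
theorem dg_pt_le {j : Fin (m + 1)} {w : Fin (m + 1) → V} (h : w j = P.one) {a b : Fin (m + 1)}
    {c : ℝ} (hab : P.q (w a) ≤ c * P.q (w b)) : P.dg a (P.pt w) ≤ c * P.dg b (P.pt w) := by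
  rw [P.dg_pt j w h, P.dg_pt j w h, ← mul_div_assoc]
  exact div_le_div_of_nonneg_right hab (P.sum_pos h).le

/-! ### The coordinates of a cell -/

variable {j : ℕ} (hj : j ≤ m)

/-- The index of the cell. -/
def jj : Fin (m + 1) := ⟨j, Nat.lt_succ_of_le hj⟩

/-- The index `i < j`. -/
def iy (i : Fin j) : Fin (m + 1) := ⟨i.1, i.2.trans (Nat.lt_succ_of_le hj)⟩

omit [MetricSpace M] in
theorem iy_ne (i : Fin j) : iy hj i ≠ jj hj := fun h => by
  have := congrArg Fin.val h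
  simp only [iy, jj] at this
  omega

/-- The homogeneous vector of a point of the cell. -/
def vec (w : Fin j → V) (l : Fin (m + 1)) : V :=
  if h : l.1 < j then w ⟨l.1, h⟩ else if l.1 = j then P.one else 0

theorem vec_iy (w : Fin j → V) (i : Fin j) : P.vec w (iy hj i) = w i := dif_pos i.2

theorem vec_jj (w : Fin j → V) : P.vec w (jj hj) = P.one := by
  rw [vec, dif_neg (by simp [jj]), if_pos (by simp [jj])]

theorem vec_gt (w : Fin j → V) {l : Fin (m + 1)} (h : j < l.1) : P.vec w l = 0 := by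
  rw [vec, dif_neg (by omega), if_neg (by omega)]

theorem vec_cont : Continuous (P.vec (j := j)) := by
  refine continuous_pi fun l => ?_
  unfold vec
  by_cases h : l.1 < j
  · simp only [dif_pos h]
    exact continuous_apply _
  · simp only [dif_neg h]
    exact continuous_const

/-- The point of the cell. -/
def Ph (w : Fin j → V) : M := P.pt (P.vec w)

include hj in
theorem Ph_cont : Continuous (P.Ph (j := j)) :=
  (P.pt_cont (jj hj)).comp_continuous P.vec_cont fun w => P.vec_jj hj w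

include hj in
theorem Ph_mem (w : Fin j → V) : P.Ph w ∈ P.LL (j + 1) := by
  obtain ⟨l, hl⟩ := Finite.exists_max fun l => P.q (P.vec w l)
  refine ⟨l, ?_, fun i => ?_⟩
  · by_contra h
    have h1 := hl (jj hj)
    rw [P.vec_jj hj, P.q_one, P.vec_gt w (by omega), P.q_zero] at h1
    linarith
  · have := P.dg_pt_le (P.vec_jj hj w) (a := i) (b := l) (c := 1) (by rw [one_mul]; exact hl i)
    rwa [one_mul] at this

include hj in
theorem Ph_memS (w : Fin j → V) {i : Fin j} (hi : 1 ≤ P.q (w i)) : P.Ph w ∈ P.LL j := by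
  obtain ⟨l, hl⟩ := Finite.exists_max fun l => P.q (P.vec w l)
  rcases lt_trichotomy l.1 j with h | h | h
  · refine ⟨l, h, fun a => ?_⟩
    have := P.dg_pt_le (P.vec_jj hj w) (a := a) (b := l) (c := 1) (by rw [one_mul]; exact hl a)
    rwa [one_mul] at this
  · have hlj : l = jj hj := Fin.ext h
    refine ⟨iy hj i, i.2, fun a => ?_⟩
    have h1 := hl a
    have := P.dg_pt_le (P.vec_jj hj w) (a := a) (b := iy hj i) (c := 1) (by
      rw [one_mul, P.vec_iy hj w i]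
      rw [hlj, P.vec_jj hj, P.q_one] at h1
      linarith)
    rwa [one_mul] at this
  · exfalso
    have h1 := hl (jj hj)
    rw [P.vec_jj hj, P.q_one, P.vec_gt w h, P.q_zero] at h1
    linarith

include hj in
theorem Ph_memK (w : Fin j → V) (hw : ∀ a, P.q (w a) ≤ 4) {i : Fin j} (hi : 1 ≤ P.q (w i)) :
    P.Ph w ∈ P.Kf (iy hj i) := by
  intro a
  refine P.dg_pt_le (P.vec_jj hj w) ?_
  rw [P.vec_iy hj w i]
  rcases lt_trichotomy a.1 j with h | h | h
  · have : P.vec w a = w ⟨a.1, h⟩ := dif_pos h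
    rw [this]
    have := hw ⟨a.1, h⟩
    linarith
  · have : a = jj hj := Fin.ext h
    rw [this, P.vec_jj hj, P.q_one]
    linarith
  · rw [P.vec_gt w h, P.q_zero]
    linarith

/-- The homotopy to the line. -/
def Ps (i : Fin j) (p : M × ℝ) : M := P.pt fun l =>
  if l = iy hj i ∨ l = jj hj then P.ch (jj hj) p.1 l else p.2 • P.ch (jj hj) p.1 l

/-- The coordinates of the homotopy. -/
def uv (i : Fin j) (p : M × ℝ) (l : Fin (m + 1)) : V :=
  if l = iy hj i ∨ l = jj hj then P.ch (jj hj) p.1 l else p.2 • P.ch (jj hj) p.1 l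

theorem Ps_eq (i : Fin j) (p : M × ℝ) : P.Ps hj i p = P.pt (P.uv hj i p) := rfl

/-- The domain of the homotopy. -/
def Tt (i : Fin j) : Set M :=
  (P.Dd (iy hj i) ∪ P.Dd (jj hj)) ∩ {x | P.dg (iy hj i) x ≤ 4 * P.dg (jj hj) x}

theorem Tt_sub (i : Fin j) : P.Tt hj i ⊆ P.Kf (jj hj) := by
  rintro x ⟨hx | hx, h4⟩
  · exact fun l => (hx l).trans h4
  · exact P.Dd_sub_Kf _ hx

theorem isClosed_Tt (i : Fin j) : IsClosed (P.Tt hj i) :=
  ((P.isClosed_Dd _).union (P.isClosed_Dd _)).inter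
    (isClosed_le (P.dg_cont _) ((P.dg_cont _).const_mul 4))

theorem uv_jj {i : Fin j} {p : M × ℝ} (hp : 0 < P.dg (jj hj) p.1) :
    P.uv hj i p (jj hj) = P.one := by
  rw [uv, if_pos (Or.inr rfl), P.ch_self _ _ hp]

theorem uv_cont (i : Fin j) :
    ContinuousOn (P.uv hj i) ({x | 0 < P.dg (jj hj) x} ×ˢ (univ : Set ℝ)) := by
  refine continuousOn_pi.2 fun l => ?_
  have h1 : ContinuousOn (fun p : M × ℝ => P.ch (jj hj) p.1 l)
      ({x | 0 < P.dg (jj hj) x} ×ˢ (univ : Set ℝ)) :=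
    (continuous_apply l).comp_continuousOn
      ((P.ch_cont (jj hj)).comp continuousOn_fst fun p hp => hp.1)
  unfold uv
  by_cases h : l = iy hj i ∨ l = jj hj
  · simp only [if_pos h]
    exact h1
  · simp only [if_neg h]
    exact continuousOn_snd.smul h1

theorem Ps_cont (i : Fin j) :
    ContinuousOn (P.Ps hj i) ({x | 0 < P.dg (jj hj) x} ×ˢ (univ : Set ℝ)) :=
  (P.pt_cont (jj hj)).comp (P.uv_cont hj i) fun _ hp => P.uv_jj hj hp.1

theorem Ps_one (i : Fin j) {x : M} (hx : 0 < P.dg (jj hj) x) : P.Ps hj i (x, 1) = x := by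
  have : P.uv hj i (x, 1) = P.ch (jj hj) x := by
    funext l
    rw [uv]
    split_ifs
    · rfl
    · exact one_smul ℝ _
  rw [Ps_eq, this, P.pt_ch _ _ hx]

theorem Ps_zero (i : Fin j) {x : M} (hx : 0 < P.dg (jj hj) x) :
    P.Ps hj i (x, 0) = P.Ph fun a => if a = i then P.ch (jj hj) x (iy hj i) else 0 := by
  rw [Ps_eq, Ph]
  congr 1
  funext l
  rcases lt_trichotomy l.1 j with h | h | h
  · have e1 : P.vec (fun a => if a = i then P.ch (jj hj) x (iy hj i) else 0) l =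
        if (⟨l.1, h⟩ : Fin j) = i then P.ch (jj hj) x (iy hj i) else 0 := dif_pos h
    rw [e1, uv]
    by_cases hi : (⟨l.1, h⟩ : Fin j) = i
    · have hl : l = iy hj i := by
        rw [← hi]
        rfl
      rw [if_pos (Or.inl hl), if_pos hi, hl]
    · have hl : ¬ (l = iy hj i ∨ l = jj hj) := by
        rintro (h' | h')
        · exact hi (Fin.ext (congrArg Fin.val h' :))
        · rw [h'] at h
          exact lt_irrefl _ h
      rw [if_neg hl, if_neg hi]
      exact zero_smul ℝ _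
  · have hl : l = jj hj := Fin.ext h
    rw [hl, P.vec_jj hj, P.uv_jj hj hx]
  · have hl : ¬ (l = iy hj i ∨ l = jj hj) := by
      rintro (h' | h')
      · rw [h'] at h
        have : (iy hj i).1 < j := i.2
        omega
      · rw [h'] at h
        exact lt_irrefl _ h
    rw [P.vec_gt _ h, uv, if_neg hl]
    exact zero_smul ℝ _

theorem Ps_K (i : Fin j) {x : M} (hx : 0 < P.dg (jj hj) x) (hxi : x ∈ P.Dd (iy hj i)) {s : ℝ}
    (hs : s ∈ Icc (0 : ℝ) 1) : P.Ps hj i (x, s) ∈ P.Kf (iy hj i) := by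
  intro a
  rw [Ps_eq]
  refine P.dg_pt_le (P.uv_jj hj (i := i) (p := (x, s)) hx) ?_
  have h1 : P.q (P.uv hj i (x, s) a) ≤ P.q (P.ch (jj hj) x a) := by
    rw [uv]
    split_ifs
    · exact le_rfl
    · rw [P.q_smul]
      have h2 := P.q_nonneg (P.ch (jj hj) x a)
      have h3 : s ^ 2 ≤ 1 := by
        have := hs.1
        have := hs.2
        nlinarith
      change s ^ 2 * P.q (P.ch (jj hj) x a) ≤ P.q (P.ch (jj hj) x a)
      nlinarith
  have h2 : P.q (P.ch (jj hj) x a) ≤ P.q (P.ch (jj hj) x (iy hj i)) := by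
    rw [P.q_ch _ _ hx, P.q_ch _ _ hx]
    exact div_le_div_of_nonneg_right (hxi a) hx.le
  have h3 : P.uv hj i (x, s) (iy hj i) = P.ch (jj hj) x (iy hj i) := if_pos (Or.inl rfl)
  rw [h3]
  have h4 := P.q_nonneg (P.ch (jj hj) x (iy hj i))
  linarith

variable [CompactSpace M]

theorem exists_mod {c : ℝ} (hc : 0 < c) : ∃ ε > 0, ∀ x y : M, dist x y < ε →
    ∀ i, |P.dg i x - P.dg i y| < c := by
  have h1 : ContinuousOn (fun x : M => fun i => P.dg i x) univ :=
    (continuous_pi fun i => P.dg_cont i).continuousOn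
  obtain ⟨ε, hε, h⟩ := Tau.modulus isCompact_univ h1 hc
  refine ⟨ε, hε, fun x y hxy i => ?_⟩
  have := (dist_le_pi_dist (fun i => P.dg i x) (fun i => P.dg i y) i).trans_lt
    (h x (mem_univ _) y (mem_univ _) hxy)
  rwa [Real.dist_eq] at this

theorem exists_eps : ∃ ε > 0, ∀ x y : M, dist x y < ε → ∀ i, x ∈ P.Dd i → ∀ l,
    P.dg l x ≤ P.dg i x → P.dg l y ≤ 4 * P.dg i y := by
  obtain ⟨ε, hε, h⟩ := P.exists_mod (c := 1 / (2 * ((m : ℝ) + 1))) (by positivity)
  refine ⟨ε, hε, fun x y hxy i hi l hl => ?_⟩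
  have h1 := abs_lt.1 (h x y hxy i)
  have h2 := abs_lt.1 (h x y hxy l)
  have h3 := P.Dd_ge hi
  have h4 : 1 / (2 * ((m : ℝ) + 1)) = (1 / ((m : ℝ) + 1)) / 2 := by
    rw [one_div, one_div, mul_inv]
    ring
  rw [h4] at h1 h2
  linarith [h1.1, h1.2, h2.1, h2.2]

/-- **The coordinates of the cell of index `j`.** -/
def crd : Crd (P.LL (j + 1)) (P.LL j) j V where
  S_X := fun x ⟨i, hi, hx⟩ => ⟨i, hi.trans (Nat.lt_succ_self j), hx⟩
  r := P.q
  ρ := 4
  hρ := by norm_num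
  cpt := P.q_cpt 4
  v0 := 0
  sc s v := s • v
  sc_cont := continuous_fst.smul continuous_snd
  sc_one := one_smul ℝ
  sc_zero := zero_smul ℝ
  sc_r s hs v := by
    rw [P.q_smul]
    have h2 := P.q_nonneg v
    have h3 : s ^ 2 ≤ 1 := by
      have := hs.1
      have := hs.2
      nlinarith
    nlinarith
  r0 := by rw [P.q_zero]; norm_num
  Φ := P.Ph
  Φ_cont := (P.Ph_cont hj).continuousOn
  Φ_X w _ := P.Ph_mem hj w
  Φ_S w _ hi := by
    obtain ⟨i, hi⟩ := hi
    exact P.Ph_memS hj w hi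
  K i := P.Kf (iy hj i)
  Φ_K i w hw hi := P.Ph_memK hj w hw hi
  S_K := by
    obtain ⟨ε, hε, h⟩ := P.exists_eps
    refine ⟨ε, hε, fun x ⟨i, hi, hx⟩ => ⟨⟨i.1, hi⟩, fun y _ hxy l => ?_⟩⟩
    exact h x y hxy i hx l (hx l)
  Li i := P.Dd (iy hj i) ∪ P.Dd (jj hj)
  N i := P.Dd (iy hj i)
  N_K i := P.Dd_sub_Kf _
  T i := P.Tt hj i
  T_cpt i := (P.isClosed_Tt hj i).isCompact
  near := by
    obtain ⟨ε, hε, h⟩ := P.exists_eps
    refine ⟨ε, hε, fun i x hx hxN y hy hxy => ⟨hy, ?_⟩⟩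
    have hxj : x ∈ P.Dd (jj hj) := hx.resolve_left hxN
    exact h x y hxy _ hxj _ (hxj _)
  chart i x := P.ch (jj hj) x (iy hj i)
  chart_cont i := (continuous_apply (iy hj i)).comp_continuousOn
    ((P.ch_cont (jj hj)).mono fun x hx => P.Kf_pos (P.Tt_sub hj i hx))
  chart_T i x hx := by
    have h := P.Kf_pos (P.Tt_sub hj i hx)
    rw [P.q_ch _ _ h, div_le_iff₀ h]
    exact hx.2
  chart_N i x hx hxN := by
    have h := P.Kf_pos (P.Tt_sub hj i hx)
    rw [P.q_ch _ _ h, one_le_div h]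
    exact hxN _
  Ψ := P.Ps hj
  Ψ_cont i := (P.Ps_cont hj i).mono fun p hp => ⟨P.Kf_pos (P.Tt_sub hj i hp.1), mem_univ _⟩
  Ψ_one i x hx := P.Ps_one hj i (P.Kf_pos (P.Tt_sub hj i hx))
  Ψ_zero i x hx := P.Ps_zero hj i (P.Kf_pos (P.Tt_sub hj i hx))
  Ψ_K i x hx hxN s hs := P.Ps_K hj i (P.Kf_pos (P.Tt_sub hj i hx)) hxN hs

end PrSp

end Vale.Agent.P216.H347C
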