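import Vale.Agent.P216.H347C.CupF
import Vale.Agent.P216.N929.Om2

/-!
# P216-C, [RING]: support of the product chains
-/

open Finsupp Set

namespace Vale.Agent.P216.H347C

open Vale.Agent.P216.Sl

variable {k : Type} [Field k] {V : Type} [PseudoMetricSpace V]

/-- Fine lists in a product of sets. -/
def FP {j : ℕ} (U : Fin j → Set V) (δ : ℝ) (l : List (Fin j → V)) : Prop :=
  (∀ x ∈ l, ∀ i, x i ∈ U i) ∧ ∀ x ∈ l, ∀ y ∈ l, dist x y < δ

theorem FP.sub {j : ℕ} {U : Fin j → Set V} {δ : ℝ} (l l' : List (Fin j → V))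
    (h : ∀ x ∈ l', x ∈ l) (hl : FP U δ l) : FP U δ l' :=
  ⟨fun x hx => hl.1 x (h x hx), fun x hx y hy => hl.2 x (h x hx) y (h y hy)⟩

theorem fp_cons {j : ℕ} {U : Fin (j + 1) → Set V} {δ : ℝ} (hδ : 0 < δ) {s : List V}
    {t : List (Fin j → V)} {l : List (V × (Fin j → V))} (hs : N929.Fine (U 0) δ s)
    (ht : FP (fun i => U i.succ) δ t) (hl : Gr s t l) :
    FP U δ (l.map fun p : V × (Fin j → V) => (Fin.cons p.1 p.2 : Fin (j + 1) → V)) := by
  constructor
  · intro x hx i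
    obtain ⟨p, hp, rfl⟩ := List.mem_map.1 hx
    refine Fin.cases ?_ (fun i => ?_) i
    · exact hs.1 _ (hl.2 p hp).1
    · exact ht.1 _ (hl.2 p hp).2 i
  · intro x hx y hy
    obtain ⟨p, hp, rfl⟩ := List.mem_map.1 hx
    obtain ⟨p', hp', rfl⟩ := List.mem_map.1 hy
    rw [dist_pi_lt_iff hδ]
    intro i
    refine Fin.cases ?_ (fun i => ?_) i
    · exact hs.2 _ (hl.2 p hp).1 _ (hl.2 p' hp').1
    · exact (dist_le_pi_dist p.2 p'.2 i).trans_lt (ht.2 _ (hl.2 p hp).2 _ (hl.2 p' hp').2)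

theorem prc_mem {d : ℕ} {δ : ℝ} (hδ : 0 < δ) : ∀ (j : ℕ) (z : Fin j → Ch k V)
    (U : Fin j → Set V), (∀ i, z i ∈ Sp k (fun l => l.length = d + 1 ∧ N929.Fine (U i) δ l)) →
    prc j z ∈ Sp k (fun l => l.length = d * j + 1 ∧ FP U δ l)
  | 0, z, U, _ => by
    refine single_mem ⟨by simp, fun x _ i => i.elim0, fun x hx y hy => ?_⟩ _
    rw [Subsingleton.elim x y, dist_self]
    exact hδ
  | j + 1, z, U, hz => by
    rw [prc_succ]
    refine map_mem (P := fun l => ∃ s t, (s.length = d + 1 ∧ N929.Fine (U 0) δ s) ∧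
      (t.length = d * j + 1 ∧ FP (fun i => U i.succ) δ t) ∧ Gr s t l) _ (fun l hl => ?_) ?_
    · obtain ⟨s, t, hs, ht, hl⟩ := hl
      rw [mp_single]
      refine single_mem ⟨?_, fp_cons hδ hs.2 ht.2 hl⟩ _
      have h1 := hl.1
      rw [List.length_map, Nat.mul_succ]
      omega
    · exact sh_mem (fun s t l hs ht hl => ⟨s, t, hs, ht, hl⟩) (hz 0)
        (prc_mem hδ j _ (fun i => U i.succ) fun i => hz i.succ)

theorem bd_prc {d : ℕ} (hd : 1 ≤ d) {δ : ℝ} (hδ : 0 < δ) : ∀ (j : ℕ) (z : Fin j → Ch k V)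
    (U W : Fin j → Set V),
    (∀ i, z i ∈ Sp k (fun l => l.length = d + 1 ∧ N929.Fine (U i) δ l)) →
    (∀ i, bd (z i) ∈ Sp k (fun l => l.length = d ∧ N929.Fine (U i) δ l ∧ ∀ x ∈ l, x ∈ W i)) →
    bd (prc j z) ∈ Sp k (fun l => l.length = d * j ∧ FP U δ l ∧
      (l = [] ∨ ∃ i, ∀ x ∈ l, x i ∈ W i))
  | 0, z, U, W, _, _ => by
    rw [prc, bd_single, one_smul, bdL_cons, bdL_nil, map_zero, sub_zero]
    exact single_mem ⟨by simp, ⟨by simp, by simp⟩, Or.inl rfl⟩ _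
  | j + 1, z, U, W, hz, hb => by
    have hp := prc_mem hδ j (fun i => z i.succ) (fun i => U i.succ) fun i => hz i.succ
    rw [prc_succ, bd_mp, bd_sh (p := d) (q := d * j) (by omega)
      (Sp_mono (fun l hl => hl.1) (hz 0)) (Sp_mono (fun l hl => hl.1) hp), map_add, map_smul]
    refine Submodule.add_mem _ ?_ (Submodule.smul_mem _ _ ?_)
    · refine map_mem (P := fun l => ∃ s t, (s.length = d ∧ N929.Fine (U 0) δ s ∧
        ∀ x ∈ s, x ∈ W 0) ∧ (t.length = d * j + 1 ∧ FP (fun i => U i.succ) δ t) ∧ Gr s t l) _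
        (fun l hl => ?_) ?_
      · obtain ⟨s, t, hs, ht, hl⟩ := hl
        rw [mp_single]
        refine single_mem ⟨?_, fp_cons hδ hs.2.1 ht.2 hl, Or.inr ⟨0, fun x hx => ?_⟩⟩ _
        · have h1 := hl.1
          rw [List.length_map, Nat.mul_succ]
          omega
        · obtain ⟨p, hp, rfl⟩ := List.mem_map.1 hx
          exact hs.2.2 _ (hl.2 p hp).1
      · exact sh_mem (fun s t l hs ht hl => ⟨s, t, hs, ht, hl⟩) (hb 0) hp
    · have ih := bd_prc hd hδ j (fun i => z i.succ) (fun i => U i.succ) (fun i => W i.succ)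
        (fun i => hz i.succ) (fun i => hb i.succ)
      have h3 : sh (z 0) (bd (prc j fun i => z i.succ)) ∈ Sp k (fun l => ∃ s t,
          (s.length = d + 1 ∧ N929.Fine (U 0) δ s) ∧ (t.length = d * j ∧
          FP (fun i => U i.succ) δ t ∧ ∃ i : Fin j, ∀ x ∈ t, x i ∈ W i.succ) ∧ Gr s t l) := by
        refine map_mem (sh (z 0)) (fun t ht => ?_) ih
        rcases ht.2.2 with rfl | hi
        · rw [sh_nil_right]
          exact Submodule.zero_mem _
        · exact sh_mem (P := fun s => s.length = d + 1 ∧ N929.Fine (U 0) δ s)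
            (Q := fun t' => t' = t) (fun s t' l hs ht' hl => ⟨s, t, hs, ⟨ht.1, ht.2.1, hi⟩,
              ht' ▸ hl⟩) (hz 0) (single_mem (P := fun t' => t' = t) rfl _)
      refine map_mem _ (fun l hl => ?_) h3
      obtain ⟨s, t, hs, ⟨ht1, ht2, i, hi⟩, hl⟩ := hl
      rw [mp_single]
      refine single_mem ⟨?_, fp_cons hδ hs.2 ht2 hl, Or.inr ⟨i.succ, fun x hx => ?_⟩⟩ _
      · have h1 := hl.1
        rw [List.length_map, Nat.mul_succ]
        omega
      · obtain ⟨p, hp, rfl⟩ := List.mem_map.1 hx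
        exact hi _ (hl.2 p hp).2

end Vale.Agent.P216.H347C
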