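import Vale.Agent.P216.H347C.Ring
import Vale.Agent.P216.H347C.Trans
import Vale.Agent.P216.H893.CaDd

/-!
# P216-C, [RING]: the Cayley projective plane
-/

namespace Vale.Agent.P216.H347C

open Vale.Agent.P216.H133C Vale.Agent.P216.H893

/-- **[RING] for the Cayley projective plane.** -/
theorem ringOutCa : RingOut ↥CaP2 cellDecCa :=
  prCa.ringOut cellDecCa (fun _ hj => Dj_eq_Dd hj) (by norm_num)

/-- **[RING] for the spaces homeomorphic to the Cayley projective plane.** -/
theorem ringOutCa_trans {N : Type} [MetricSpace N] [CompactSpace N] (e : N ≃ₜ ↥CaP2) :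
    RingOut N (cellDecCa.trans e) :=
  ringOut_trans cellDecCa e ringOutCa

end Vale.Agent.P216.H347C
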